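import Mathlib

/-!
P224: volumes of round spheres and of the minimal Clifford products.
-/

namespace Vale.Agent.P224

/-- The volume of the unit `k`-sphere. -/
noncomputable def sphereArea (k : ℕ) : ℝ :=
  2 * Real.pi ^ (((k : ℝ) + 1) / 2) / Real.Gamma (((k : ℝ) + 1) / 2)

/-- The volume of the minimal Clifford product of `S^k` and `S^(m-k)` in `S^(m+1)`. -/
noncomputable def cliffordVolume (m k : ℕ) : ℝ :=
  ((k : ℝ) / m) ^ ((k : ℝ) / 2) * (((m : ℝ) - k) / m) ^ (((m : ℝ) - k) / 2) *
    sphereArea k * sphereArea (m - k)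

theorem sphereArea_pos (k : ℕ) : 0 < sphereArea k := by
  have : 0 < Real.Gamma (((k : ℝ) + 1) / 2) := Real.Gamma_pos_of_pos (by positivity)
  unfold sphereArea
  positivity

theorem cliffordVolume_pos {m k : ℕ} (h1 : 1 ≤ k) (h2 : k < m) : 0 < cliffordVolume m k := by
  have a : (0 : ℝ) < k := by exact_mod_cast h1
  have b : (0 : ℝ) < (m : ℝ) - k := by
    have : (k : ℝ) < m := by exact_mod_cast h2
    linarith
  have c : (0 : ℝ) < m := by linarith
  have := sphereArea_pos k
  have := sphereArea_pos (m - k)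
  unfold cliffordVolume
  positivity

end Vale.Agent.P224
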