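import Vale.Agent.P224.Defs

/-!
P224: the Jacobian of the sweep map at one point, in terms of principal curvatures.
-/

namespace Vale.Agent.P224

open scoped RealInnerProductSpace ContDiff Topology Matrix
open Matrix

variable {m : ℕ}

theorem jac_D_symm {U : Set (E m)} (hU : IsOpen U) {f : E m → E (m + 2)}
    (hf : ContDiffOn ℝ ∞ f U) {p : E m} (hp : p ∈ U) (i j : Fin m) :
    D (D f i) j p = D (D f j) i p := by
  have hs : IsSymmSndFDerivAt ℝ f p := (hf.contDiffAt (hU.mem_nhds hp)).isSymmSndFDerivAt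
    (by simp only [minSmoothness_of_isRCLikeNormedField]; exact WithTop.coe_le_coe.mpr le_top)
  have hd : DifferentiableAt ℝ (fderiv ℝ f) p :=
    ((hf.fderiv_of_isOpen hU (m := ∞) (by simp)).contDiffAt (hU.mem_nhds hp)).differentiableAt
      (by simp)
  have hk : ∀ a b : Fin m, D (D f a) b p = fderiv ℝ (fderiv ℝ f) p
      (EuclideanSpace.single b 1) (EuclideanSpace.single a 1) := fun a b => by
    unfold D
    rw [fderiv_clm_apply hd (differentiableAt_const _)]
    simp
  rw [hk, hk, hs.eq]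

/-- Simultaneous diagonalisation. -/
theorem exists_frame {ι : Type*} [Fintype ι] [DecidableEq ι] {G H : Matrix ι ι ℝ}
    (hG : G.PosSemidef) (hd : G.det ≠ 0) (hH : H.IsHermitian) :
    ∃ (C : Matrix ι ι ℝ) (k : ι → ℝ), Cᵀ * G * C = 1 ∧ Cᵀ * H * C = diagonal k := by
  have hpos : ∀ i, 0 < hG.1.eigenvalues i := fun i => lt_of_le_of_ne (hG.eigenvalues_nonneg i)
    fun h => hd (by
      rw [hG.1.det_eq_prod_eigenvalues]
      exact Finset.prod_eq_zero (Finset.mem_univ i) (by simp [← h]))
  set U : Matrix ι ι ℝ := (hG.1.eigenvectorUnitary : Matrix ι ι ℝ) with hUdef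
  have hU : Uᵀ * G * U = diagonal hG.1.eigenvalues := by
    have := hG.1.conjStarAlgAut_star_eigenvectorUnitary
    simpa [Unitary.conjStarAlgAut_apply, hUdef, star_eq_conjTranspose,
      conjTranspose_eq_transpose_of_trivial, mul_assoc] using this
  set C₁ := U * diagonal fun i => (√(hG.1.eigenvalues i))⁻¹ with hC₁
  have h1 : C₁ᵀ * G * C₁ = 1 := by
    rw [hC₁, transpose_mul, diagonal_transpose]
    rw [show ∀ X : Matrix ι ι ℝ, X * Uᵀ * G * (U * X) = X * (Uᵀ * G * U) * X from
      fun X => by simp only [mul_assoc], hU, diagonal_mul_diagonal, diagonal_mul_diagonal,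
      ← diagonal_one]
    refine congrArg diagonal (funext fun i => ?_)
    have := hpos i
    field_simp
    rw [Real.sq_sqrt this.le]
  have hH' : (C₁ᵀ * H * C₁).IsHermitian := by
    rw [← conjTranspose_eq_transpose_of_trivial]
    exact isHermitian_conjTranspose_mul_mul C₁ hH
  set V : Matrix ι ι ℝ := (hH'.eigenvectorUnitary : Matrix ι ι ℝ) with hVdef
  have hV : Vᵀ * (C₁ᵀ * H * C₁) * V = diagonal hH'.eigenvalues := by
    have := hH'.conjStarAlgAut_star_eigenvectorUnitary
    simpa [Unitary.conjStarAlgAut_apply, hVdef, star_eq_conjTranspose,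
      conjTranspose_eq_transpose_of_trivial, mul_assoc] using this
  have hVV : Vᵀ * V = 1 := by
    have := Unitary.coe_star_mul_self hH'.eigenvectorUnitary
    simpa [hVdef, star_eq_conjTranspose, conjTranspose_eq_transpose_of_trivial] using this
  refine ⟨C₁ * V, hH'.eigenvalues, ?_, ?_⟩
  · rw [transpose_mul, show Vᵀ * C₁ᵀ * G * (C₁ * V) = Vᵀ * (C₁ᵀ * G * C₁) * V by
      simp only [mul_assoc], h1, mul_one, hVV]
  · rw [← hV, transpose_mul]
    simp only [mul_assoc]

/-- The columns of the moving frame. -/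
noncomputable def jacFrame (f : E m → E (m + 2)) (p : E m) (ν : E (m + 2)) :
    Fin m ⊕ Fin 2 → E (m + 2) := Sum.elim (fun i => D f i p) ![f p, ν]

theorem jac_inner_frame {U : Set (E m)} (hU : IsOpen U) {f : E m → E (m + 2)}
    (hf : ContDiffOn ℝ ∞ f U) (hs : ∀ q ∈ U, ‖f q‖ = 1) {p : E m} (hp : p ∈ U) {ν : E (m + 2)}
    (hn : IsUnitNormal f p ν) (a b : Fin m ⊕ Fin 2) :
    ⟪jacFrame f p ν a, jacFrame f p ν b⟫ = fromBlocks (metric f p) 0 0 1 a b := by
  have hF : ∀ i, ⟪f p, D f i p⟫ = (0 : ℝ) := fun i => by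
    have hd := (hf.contDiffAt (hU.mem_nhds hp)).differentiableAt (by simp)
    have h1 : (fun q => ⟪f q, f q⟫) =ᶠ[𝓝 p] fun _ => (1 : ℝ) :=
      Filter.eventuallyEq_of_mem (hU.mem_nhds hp) fun q hq => by
        simp [hs q hq]
    have h2 := h1.fderiv_eq (𝕜 := ℝ)
    have h3 := congrArg (fun L => L (EuclideanSpace.single i (1 : ℝ))) h2
    simp only [fderiv_inner_apply ℝ hd hd, fderiv_fun_const, Pi.zero_apply,
      _root_.zero_apply] at h3
    have h4 := real_inner_comm (f p) (fderiv ℝ f p (EuclideanSpace.single i (1 : ℝ)))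
    simp only [D]
    linarith
  obtain ⟨hν, hfν, hDν⟩ := hn
  have hff : ⟪f p, f p⟫ = (1 : ℝ) := by simp [hs p hp]
  have hνν : ⟪ν, ν⟫ = (1 : ℝ) := by simp [hν]
  rcases a with a | a <;> rcases b with b | b
  · simp [jacFrame, metric]
  · fin_cases b <;> simp [jacFrame, hDν, real_inner_comm (f p), hF]
  · fin_cases a <;> simp [jacFrame, hF, real_inner_comm _ ν, hDν]
  · fin_cases a <;> fin_cases b <;>
      simp [jacFrame, hff, hνν, hfν, real_inner_comm _ ν, hs p hp, hν]

/-- The Jacobian of the sweep map. -/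
theorem exists_curvatures {U : Set (E m)} (hU : IsOpen U) {f ν : E m → E (m + 2)}
    (hf : ContDiffOn ℝ ∞ f U) (hν : ContDiffOn ℝ ∞ ν U) (hs : ∀ p ∈ U, ‖f p‖ = 1)
    (hg : ∀ p ∈ U, (metric f p).det ≠ 0) (hn : ∀ p ∈ U, IsUnitNormal f p (ν p)) {p : E m}
    (hp : p ∈ U) :
    ∃ k : Fin m → ℝ, ∑ i, k i = meanCurv f p (ν p) ∧ ∑ i, k i ^ 2 = normSq f p (ν p) ∧
      ∀ z : E (m + 2), pPart z = p → 0 ≤ rPart z → focal f ν p (tPart z) →
        |(fderiv ℝ (sweep f ν) z).det| = rPart z ^ (m + 1) * volDensity f p *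
          ∏ i, max (Real.cos (tPart z) - k i * Real.sin (tPart z)) 0 := by
  classical
  have hdf := (hf.contDiffAt (hU.mem_nhds hp)).differentiableAt (by simp)
  have hdν := (hν.contDiffAt (hU.mem_nhds hp)).differentiableAt (by simp)
  set G := metric f p with hG
  set H := secondForm f p (ν p) with hH
  set A := shapeOp f p (ν p) with hA
  have hGp : G.PosSemidef := by
    have := Matrix.posSemidef_gram ℝ (fun i => D f i p)
    exact this
  have hHs : H.IsHermitian := by
    ext i j
    simp [hH, secondForm, jac_D_symm hU hf hp i j]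
  obtain ⟨C, k, hCG, hCH⟩ := exists_frame hGp (hg p hp) hHs
  have hGi : G⁻¹ = C * Cᵀ := by
    have h1 : Cᵀ * (G * C) = 1 := by rw [← Matrix.mul_assoc]; exact hCG
    have h2 := mul_eq_one_comm.1 h1
    exact inv_eq_right_inv (by rw [← Matrix.mul_assoc]; exact h2)
  have hGA : G * A = H := by
    rw [hA, shapeOp, ← hG, ← hH, ← Matrix.mul_assoc,
      Matrix.mul_nonsing_inv _ (isUnit_iff_ne_zero.2 (hg p hp)), Matrix.one_mul]
  refine ⟨k, ?_, ?_, ?_⟩
  · rw [meanCurv, ← hA, hA, shapeOp, ← hG, ← hH, hGi, Matrix.mul_assoc, Matrix.trace_mul_comm, hCH,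
      trace_diagonal]
  · rw [normSq, ← hA, hA, shapeOp, ← hG, ← hH, hGi]
    rw [show C * Cᵀ * H * (C * Cᵀ * H) = C * (Cᵀ * H * C * (Cᵀ * H)) by simp only [Matrix.mul_assoc],
      Matrix.trace_mul_comm, Matrix.mul_assoc _ (Cᵀ * H), hCH, diagonal_mul_diagonal,
      trace_diagonal]
    exact Finset.sum_congr rfl fun i _ => by ring
  intro z hz hr hfoc
  set t := tPart z
  set r := rPart z
  set c := Real.cos t
  set s := Real.sin t
  -- the focal condition in the frame
  have hfac : ∀ i, 0 ≤ c - k i * s := by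
    have := (show (c • G - s • H).PosSemidef from hfoc).conjTranspose_mul_mul_same C
    rw [conjTranspose_eq_transpose_of_trivial, Matrix.mul_sub, Matrix.sub_mul,
      Matrix.mul_smul, Matrix.mul_smul, Matrix.smul_mul, Matrix.smul_mul, hCG, hCH] at this
    intro i
    have h := this.diag_nonneg (i := i)
    simp at h
    linarith
  simp only [max_eq_left (hfac _)]
  -- the frame and the Weingarten equation
  set e := finSumFinEquiv (m := m) (n := 2) with he
  set col := jacFrame f p (ν p) with hcol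
  set R : Matrix (Fin m ⊕ Fin 2) (Fin m ⊕ Fin 2) ℝ := of fun a b => col b (e a) with hR
  have hinn : ∀ x y : E (m + 2), ⟪x, y⟫ = ∑ a, x (e a) * y (e a) := fun x y => by
    rw [PiLp.inner_apply, ← e.sum_comp]
    simp [mul_comm]
  have hRR : Rᵀ * R = fromBlocks G 0 0 1 := by
    ext a b
    rw [hG, ← jac_inner_frame hU hf hs hp (hn p hp) a b, hinn]
    simp [hR, Matrix.mul_apply, hcol]
  have hdR : R.det ^ 2 = G.det := by
    have := congrArg Matrix.det hRR
    rw [det_mul, det_transpose, det_fromBlocks_zero₁₂, det_one, mul_one] at this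
    rw [sq, this]
  have hext : ∀ x y : E (m + 2), (∀ b, ⟪col b, x⟫ = ⟪col b, y⟫) → x = y := by
    intro x y h
    have h0 : Rᵀ *ᵥ (fun a => x (e a) - y (e a)) = 0 := by
      funext b
      have := h b
      rw [hinn, hinn] at this
      simp only [mulVec, dotProduct, transpose_apply, hR, of_apply, mul_sub,
        Finset.sum_sub_distrib, this, sub_self, Pi.zero_apply]
    have hne : Rᵀ.det ≠ 0 := by
      rw [det_transpose]
      intro h'
      exact hg p hp (by rw [← hG, ← hdR, h']; ring)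
    have := Matrix.eq_zero_of_mulVec_eq_zero hne h0
    ext j
    obtain ⟨a, rfl⟩ := e.surjective j
    exact sub_eq_zero.1 (congrFun this a)
  have hW : ∀ i, D ν i p = -∑ l, A l i • D f l p := by
    intro i
    refine hext _ _ fun b => ?_
    have dz : ∀ (g : E m → E (m + 2)) (a : ℝ), DifferentiableAt ℝ g p →
        (∀ q ∈ U, ⟪g q, ν q⟫ = a) → ⟪g p, D ν i p⟫ = -⟪D g i p, ν p⟫ := by
      intro g a hd' h
      have h2 := (Filter.eventuallyEq_of_mem (hU.mem_nhds hp) h :
        (fun q => ⟪g q, ν q⟫) =ᶠ[𝓝 p] fun _ => a).fderiv_eq (𝕜 := ℝ)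
      have h3 := congrArg (fun L => L (EuclideanSpace.single i (1 : ℝ))) h2
      simp only [fderiv_inner_apply ℝ hd' hdν, fderiv_fun_const, Pi.zero_apply,
        _root_.zero_apply] at h3
      simp only [D]
      linarith
    have hrhs : ⟪col b, -∑ l, A l i • D f l p⟫ =
        -∑ l, (fromBlocks G 0 0 (1 : Matrix (Fin 2) (Fin 2) ℝ)) b (Sum.inl l) * A l i := by
      rw [inner_neg_right, inner_sum]
      congr 1
      refine Finset.sum_congr rfl fun l _ => ?_
      rw [inner_smul_right, hG, ← jac_inner_frame hU hf hs hp (hn p hp) b (Sum.inl l), mul_comm]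
      rfl
    rw [hrhs]
    rcases b with j | j
    · have h1 := dz (D f j) 0 (((hf.fderiv_of_isOpen hU (m := ∞) (by simp)).clm_apply
        contDiffOn_const).contDiffAt (hU.mem_nhds hp) |>.differentiableAt (by simp))
        fun q hq => (hn q hq).2.2 j
      show ⟪D f j p, D ν i p⟫ = _
      rw [h1, show ⟪D (D f j) i p, ν p⟫ = H j i from rfl, ← hGA]
      rfl
    · fin_cases j
      · have h1 := dz f 0 hdf fun q hq => (hn q hq).2.1
        show ⟪f p, D ν i p⟫ = _
        simp [h1, (hn p hp).2.2 i]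
      · have h2 := (Filter.eventuallyEq_of_mem (hU.mem_nhds hp)
          (fun q hq => by simp [(hn q hq).1] :
            ∀ q ∈ U, ⟪ν q, ν q⟫ = (1 : ℝ)) :
          (fun q => ⟪ν q, ν q⟫) =ᶠ[𝓝 p] fun _ => (1 : ℝ)).fderiv_eq (𝕜 := ℝ)
        have h3 := congrArg (fun L => L (EuclideanSpace.single i (1 : ℝ))) h2
        simp only [fderiv_inner_apply ℝ hdν hdν, fderiv_fun_const, Pi.zero_apply,
          _root_.zero_apply] at h3
        have h4 := real_inner_comm (ν p) (fderiv ℝ ν p (EuclideanSpace.single i (1 : ℝ)))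
        have h5 : ⟪ν p, D ν i p⟫ = (0 : ℝ) := by simp only [D]; linarith
        show ⟪ν p, D ν i p⟫ = _
        simp [h5]
  -- the derivative
  set P : E (m + 2) →L[ℝ] E m := ((EuclideanSpace.equiv (Fin m) ℝ).symm : (Fin m → ℝ) →L[ℝ] E m).comp
    (ContinuousLinearMap.pi fun i => EuclideanSpace.proj (Fin.castAdd 2 i)) with hP
  set T : E (m + 2) →L[ℝ] ℝ := EuclideanSpace.proj (Fin.natAdd m (0 : Fin 2)) with hT
  set Rd : E (m + 2) →L[ℝ] ℝ := EuclideanSpace.proj (Fin.natAdd m (1 : Fin 2)) with hRd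
  have hPz : P z = p := hz
  have dP : HasFDerivAt pPart P z := P.hasFDerivAt
  have dT : HasFDerivAt tPart T z := T.hasFDerivAt
  have dR : HasFDerivAt rPart Rd z := Rd.hasFDerivAt
  have df : HasFDerivAt (fun w => f (pPart w)) ((fderiv ℝ f p).comp P) z :=
    HasFDerivAt.comp z (by rw [hz]; exact hdf.hasFDerivAt) dP
  have dν : HasFDerivAt (fun w => ν (pPart w)) ((fderiv ℝ ν p).comp P) z :=
    HasFDerivAt.comp z (by rw [hz]; exact hdν.hasFDerivAt) dP
  have dS : HasFDerivAt (sweep f ν) _ z := dR.smul ((dT.cos.smul df).add (dT.sin.smul dν))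
  set L := fderiv ℝ (sweep f ν) z with hL
  have hLw : ∀ w, L w = r • (c • fderiv ℝ f p (P w) + s • fderiv ℝ ν p (P w) +
      T w • ((-s) • f p + c • ν p)) + Rd w • (c • f p + s • ν p) := by
    intro w
    rw [hL, dS.fderiv]
    simp only [_root_.add_apply, _root_.smul_apply, ContinuousLinearMap.smulRight_apply,
      ContinuousLinearMap.coe_comp, Function.comp_apply, hz, smul_eq_mul]
    module
  set Q : Matrix (Fin 2) (Fin 2) ℝ := !![-(r * s), c; r * c, s] with hQ
  set B : Matrix (Fin m ⊕ Fin 2) (Fin m ⊕ Fin 2) ℝ :=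
    fromBlocks (r • (c • 1 - s • A)) 0 0 Q with hB
  have hPl : ∀ i, P (EuclideanSpace.single (e (Sum.inl i)) 1) = EuclideanSpace.single i 1 := by
    intro i; ext j
    simp [hP, he, Pi.single_apply, EuclideanSpace.equiv, Fin.ext_iff]
  have hPr : ∀ j, P (EuclideanSpace.single (e (Sum.inr j)) 1) = 0 := by
    intro j; ext i
    simp [hP, he, Pi.single_apply, EuclideanSpace.equiv, Fin.ext_iff]
    omega
  have hLcol : ∀ b, L (EuclideanSpace.single (e b) 1) = ∑ a, B a b • col a := by
    intro b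
    rw [Fintype.sum_sum_type, Fin.sum_univ_two]
    rcases b with i | j
    · have hTz : T (EuclideanSpace.single (e (Sum.inl i)) 1) = 0 := by
        simp [hT, he, Pi.single_apply, Fin.ext_iff]; omega
      have hRz : Rd (EuclideanSpace.single (e (Sum.inl i)) 1) = 0 := by
        simp [hRd, he, Pi.single_apply, Fin.ext_iff]; omega
      simp only [hLw, hPl, hTz, hRz, smul_zero, zero_smul, add_zero, hB, fromBlocks_apply₁₁,
        fromBlocks_apply₂₁, Matrix.zero_apply, zero_add]
      show r • (c • D f i p + s • D ν i p) = _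
      rw [hW]
      simp only [hcol, jacFrame, Sum.elim_inl, Matrix.smul_apply, Matrix.sub_apply, smul_eq_mul,
        mul_smul, sub_smul, Finset.sum_sub_distrib, ← Finset.smul_sum, smul_neg, ← sub_eq_add_neg]
      simp [Matrix.one_apply, ite_smul]
    · simp only [hLw, hPr, map_zero, smul_zero, zero_add, hB, fromBlocks_apply₁₂,
        fromBlocks_apply₂₂, Matrix.zero_apply, zero_smul, Finset.sum_const_zero, hcol, jacFrame,
        Sum.elim_inr]
      fin_cases j
      · simp [hT, hRd, he, hQ, Pi.single_apply, Fin.ext_iff, Pi.add_apply]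
        module
      · simp [hT, hRd, he, hQ, Pi.single_apply, Fin.ext_iff, Pi.add_apply]
  have hM : (LinearMap.toMatrix (EuclideanSpace.basisFun (Fin (m + 2)) ℝ).toBasis
      (EuclideanSpace.basisFun (Fin (m + 2)) ℝ).toBasis L.toLinearMap).submatrix e e = R * B := by
    ext a b
    simp only [submatrix_apply, LinearMap.toMatrix_apply, OrthonormalBasis.coe_toBasis,
      EuclideanSpace.basisFun_apply, OrthonormalBasis.coe_toBasis_repr_apply,
      EuclideanSpace.basisFun_repr, ContinuousLinearMap.coe_coe, hLcol, Matrix.mul_apply]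
    simp [hR, Finset.sum_apply, mul_comm]
  have hdet : L.det = R.det * B.det := by
    rw [ContinuousLinearMap.det, ← LinearMap.det_toMatrix
      (EuclideanSpace.basisFun (Fin (m + 2)) ℝ).toBasis, ← det_submatrix_equiv_self e, hM, det_mul]
  have hCA : (c • (1 : Matrix (Fin m) (Fin m) ℝ) - s • A).det = ∏ i, (c - k i * s) := by
    have h1 : Cᵀ * G * (c • 1 - s • A) * C = diagonal fun i => c - k i * s := by
      rw [Matrix.mul_sub, Matrix.mul_smul, Matrix.mul_smul, Matrix.mul_one, Matrix.mul_assoc _ G A,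
        hGA, Matrix.sub_mul, Matrix.smul_mul, Matrix.smul_mul, hCG, hCH, ← diagonal_one,
        ← diagonal_smul, ← diagonal_smul, diagonal_sub]
      congr 1; funext i; simp [mul_comm]
    have h2 := congrArg Matrix.det h1
    have h3 := congrArg Matrix.det hCG
    simp only [det_mul, det_diagonal, det_one] at h2 h3
    rw [← h2]
    linear_combination (-(c • (1 : Matrix (Fin m) (Fin m) ℝ) - s • A).det) * h3
  have hBdet : B.det = r ^ m * (∏ i, (c - k i * s)) * (-r) := by
    rw [hB, det_fromBlocks_zero₁₂, det_smul, hCA, Fintype.card_fin, hQ, det_fin_two_of]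
    congr 1
    linear_combination (-r) * Real.sin_sq_add_cos_sq t
  have hRabs : |R.det| = volDensity f p := by
    rw [volDensity, ← hG, ← hdR, Real.sqrt_sq_eq_abs]
  rw [hdet, hBdet, abs_mul, hRabs, mul_neg, abs_neg,
    abs_of_nonneg (mul_nonneg (mul_nonneg (pow_nonneg hr m)
      (Finset.prod_nonneg fun i _ => hfac i)) hr)]
  ring

end Vale.Agent.P224
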