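import Vale.Agent.P224.Consts

/-!
P224: the integral of the focal Jacobian of trace-free curvatures with squared length at least `m`
is largest for the Clifford products.
-/

namespace Vale.Agent.P224

open MeasureTheory Set Filter
open scoped BigOperators Topology Real

variable {m : ℕ}

/-- The positive part of one factor of the focal Jacobian. -/
noncomputable def fac (a t : ℝ) : ℝ := max (Real.cos t - a * Real.sin t) 0

/-- The focal Jacobian, zero past the first focal point. -/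
noncomputable def phi (k : Fin m → ℝ) (t : ℝ) : ℝ := ∏ i, fac (k i) t

/-- The integral of the focal Jacobian. -/
noncomputable def J (k : Fin m → ℝ) : ℝ := ∫ t in (-(π / 2))..(π / 2), phi k t

theorem fac_nonneg (a t : ℝ) : 0 ≤ fac a t := le_max_right _ _

theorem phi_nonneg (k : Fin m → ℝ) (t : ℝ) : 0 ≤ phi k t :=
  Finset.prod_nonneg fun i _ => fac_nonneg _ _

theorem continuous_phi : Continuous fun p : (Fin m → ℝ) × ℝ => phi p.1 p.2 := by
  unfold phi fac
  fun_prop

theorem continuous_phi_right (k : Fin m → ℝ) : Continuous (phi k) := by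
  show Continuous fun t => ∏ i, max (Real.cos t - k i * Real.sin t) 0
  fun_prop

theorem continuous_J : Continuous (J (m := m)) :=
  intervalIntegral.continuous_parametric_intervalIntegral_of_continuous' continuous_phi _ _

/-- Scaling up decreases the Jacobian. -/
theorem phi_scale {k : Fin m → ℝ} (hm : 0 < m) (h0 : ∑ i, k i = 0) {l : ℝ} (hl : 1 ≤ l) {t : ℝ}
    (hc : 0 ≤ Real.cos t) : phi (l • k) t ≤ phi k t := by
  by_cases hn : ∃ i, Real.cos t - l * k i * Real.sin t ≤ 0
  · obtain ⟨i, hi⟩ := hn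
    have : phi (l • k) t = 0 :=
      Finset.prod_eq_zero (Finset.mem_univ i) (max_eq_right (by simpa [Pi.smul_apply] using hi))
    rw [this]
    exact phi_nonneg k t
  push Not at hn
  have hl0 : 0 < l := by linarith
  have hcp : 0 < Real.cos t := by
    have h1 : 0 < ∑ i, (Real.cos t - l * k i * Real.sin t) :=
      Finset.sum_pos (fun i _ => hn i) ⟨⟨0, hm⟩, Finset.mem_univ _⟩
    rw [Finset.sum_sub_distrib, ← Finset.sum_mul, ← Finset.mul_sum, h0, Finset.sum_const,
      Finset.card_univ, Fintype.card_fin, nsmul_eq_mul] at h1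
    simp only [mul_zero, zero_mul, sub_zero] at h1
    by_contra h
    push Not at h
    nlinarith [(Nat.cast_nonneg m : (0 : ℝ) ≤ m)]
  set c := Real.cos t with hcdef
  set a : Fin m → ℝ := fun i => c - l * k i * Real.sin t with ha
  set b : Fin m → ℝ := fun i => c - k i * Real.sin t with hb
  have hab : ∀ i, b i = (1 - 1 / l) * c + 1 / l * a i := fun i => by
    simp only [ha, hb]; field_simp; ring
  have hil : 1 / l ≤ 1 := by rw [div_le_one hl0]; exact hl
  have hbp : ∀ i, 0 < b i := fun i => by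
    rw [hab i]
    have := mul_pos (one_div_pos.2 hl0) (hn i)
    nlinarith
  have hA : phi (l • k) t = ∏ i, a i := Finset.prod_congr rfl fun i _ => by
    show max (Real.cos t - (l • k) i * Real.sin t) 0 = a i
    rw [Pi.smul_apply, smul_eq_mul, max_eq_left (hn i).le]
  have hB : phi k t = ∏ i, b i := Finset.prod_congr rfl fun i _ => max_eq_left (hbp i).le
  rw [hA, hB]
  have hgm : ∀ i, c ^ (1 - 1 / l) * a i ^ (1 / l) ≤ b i := fun i => by
    rw [hab i]
    exact Real.geom_mean_le_arith_mean2_weighted (by linarith) (by positivity) hcp.le (hn i).le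
      (by ring)
  -- the product of the larger factors is at most that of their mean
  have hAc : ∏ i, a i ≤ c ^ m := by
    have hexp : ∀ i, a i ≤ c * Real.exp ((a i - c) / c) := fun i => by
      have := Real.add_one_le_exp ((a i - c) / c)
      have e : c * ((a i - c) / c + 1) = a i := by field_simp; ring
      calc a i = c * ((a i - c) / c + 1) := e.symm
        _ ≤ _ := mul_le_mul_of_nonneg_left this hcp.le
    refine (Finset.prod_le_prod (fun i _ => (hn i).le) fun i _ => hexp i).trans (le_of_eq ?_)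
    rw [Finset.prod_mul_distrib, Finset.prod_const, Finset.card_univ, Fintype.card_fin,
      ← Real.exp_sum, ← Finset.sum_div]
    have : ∑ i, (a i - c) = 0 := by
      simp only [ha, sub_sub_cancel_left, Finset.sum_neg_distrib, ← Finset.sum_mul, ← Finset.mul_sum, h0]
      simp
    rw [this, zero_div, Real.exp_zero, mul_one]
  have hAp : 0 < ∏ i, a i := Finset.prod_pos fun i _ => hn i
  calc ∏ i, a i = (∏ i, a i) ^ (1 - 1 / l) * (∏ i, a i) ^ (1 / l) := by
        rw [← Real.rpow_add hAp, sub_add_cancel, Real.rpow_one]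
    _ ≤ (c ^ m) ^ (1 - 1 / l) * (∏ i, a i) ^ (1 / l) :=
        mul_le_mul_of_nonneg_right (Real.rpow_le_rpow hAp.le hAc (by linarith)) (by positivity)
    _ = ∏ i, c ^ (1 - 1 / l) * a i ^ (1 / l) := by
        rw [Finset.prod_mul_distrib, Finset.prod_const, Finset.card_univ, Fintype.card_fin,
          Real.finset_prod_rpow _ _ (fun i _ => (hn i).le), ← Real.rpow_natCast_mul hcp.le,
          ← Real.rpow_mul_natCast hcp.le, mul_comm (m : ℝ)]
    _ ≤ ∏ i, b i := Finset.prod_le_prod (fun i _ => mul_nonneg (Real.rpow_nonneg hcp.le _)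
          (Real.rpow_nonneg (hn i).le _)) fun i _ => hgm i

theorem J_scale {k : Fin m → ℝ} (hm : 0 < m) (h0 : ∑ i, k i = 0) {l : ℝ} (hl : 1 ≤ l) :
    J (l • k) ≤ J k := by
  have := Real.pi_pos
  refine intervalIntegral.integral_mono_on (by linarith)
    ((continuous_phi_right _).intervalIntegrable _ _) ((continuous_phi_right _).intervalIntegrable _ _)
    fun t ht => phi_scale hm h0 hl (Real.cos_nonneg_of_mem_Icc ht)

/-- Two factors cannot vanish together. -/
theorem pair_sep {a b : ℝ} (hab : a ≠ b) :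
    ∃ η > 0, ∀ t : ℝ, η ≤ |Real.cos t - a * Real.sin t| + |Real.cos t - b * Real.sin t| := by
  refine ⟨|a - b| / (|a - b| + |a| + |b| + 2), by
    have := abs_pos.2 (sub_ne_zero.2 hab); positivity, fun t => ?_⟩
  set F := Real.cos t - a * Real.sin t
  set G := Real.cos t - b * Real.sin t
  set s := |F| + |G|
  have hd : 0 < |a - b| := abs_pos.2 (sub_ne_zero.2 hab)
  have h1 : |a - b| * |Real.sin t| ≤ s := by
    rw [← abs_mul, show (a - b) * Real.sin t = G - F by simp only [F, G]; ring]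
    exact (abs_sub _ _).trans (by simp only [s]; linarith)
  have h2 : |a - b| * |Real.cos t| ≤ (|a| + |b|) * s := by
    rw [← abs_mul, show (a - b) * Real.cos t = a * G - b * F by simp only [F, G]; ring]
    refine (abs_sub _ _).trans ?_
    rw [abs_mul, abs_mul]
    nlinarith [abs_nonneg a, abs_nonneg b, abs_nonneg F, abs_nonneg G]
  have h3 : 1 ≤ |Real.sin t| + |Real.cos t| := by
    nlinarith [Real.sin_sq_add_cos_sq t, sq_abs (Real.sin t), sq_abs (Real.cos t), abs_nonneg (Real.sin t),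
      abs_nonneg (Real.cos t)]
  have hs : 0 ≤ s := by positivity
  rw [div_le_iff₀ (by positivity)]
  nlinarith [abs_nonneg a, abs_nonneg b, mul_le_mul_of_nonneg_left h3 hd.le]

/-- The cubic factor is convex along triples with two fixed elementary symmetric functions. -/
theorem triple_convex {a b c a₁ b₁ c₁ a₂ b₂ c₂ w₁ w₂ η δ t : ℝ}
    (h1 : a₁ + b₁ + c₁ = a + b + c) (h2 : a₁ * b₁ + b₁ * c₁ + c₁ * a₁ = a * b + b * c + c * a)
    (h1' : a₂ + b₂ + c₂ = a + b + c) (h2' : a₂ * b₂ + b₂ * c₂ + c₂ * a₂ = a * b + b * c + c * a)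
    (hw₁ : 0 ≤ w₁) (hw₂ : 0 ≤ w₂) (hw : w₁ + w₂ = 1)
    (h3 : w₁ * (a₁ * b₁ * c₁) + w₂ * (a₂ * b₂ * c₂) = a * b * c)
    (hab : η ≤ |Real.cos t - a * Real.sin t| + |Real.cos t - b * Real.sin t|)
    (hbc : η ≤ |Real.cos t - b * Real.sin t| + |Real.cos t - c * Real.sin t|)
    (hca : η ≤ |Real.cos t - c * Real.sin t| + |Real.cos t - a * Real.sin t|)
    (hδ : 4 * δ ≤ η) (ha₁ : |a₁ - a| ≤ δ) (hb₁ : |b₁ - b| ≤ δ) (hc₁ : |c₁ - c| ≤ δ)
    (ha₂ : |a₂ - a| ≤ δ) (hb₂ : |b₂ - b| ≤ δ) (hc₂ : |c₂ - c| ≤ δ) :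
    fac a t * fac b t * fac c t ≤
      w₁ * (fac a₁ t * fac b₁ t * fac c₁ t) + w₂ * (fac a₂ t * fac b₂ t * fac c₂ t) := by
  set C := Real.cos t
  set S := Real.sin t
  have hR : 0 ≤ w₁ * (fac a₁ t * fac b₁ t * fac c₁ t) + w₂ * (fac a₂ t * fac b₂ t * fac c₂ t) := by
    have := fac_nonneg a₁ t; have := fac_nonneg b₁ t; have := fac_nonneg c₁ t
    have := fac_nonneg a₂ t; have := fac_nonneg b₂ t; have := fac_nonneg c₂ t
    positivity
  by_cases hpos : 0 < C - a * S ∧ 0 < C - b * S ∧ 0 < C - c * S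
  swap
  · refine le_trans (le_of_eq ?_) hR
    simp only [not_and_or, not_lt] at hpos
    rcases hpos with h | h | h <;> simp [fac, C, S, max_eq_right h]
  obtain ⟨pa, pb, pc⟩ := hpos
  rw [abs_of_pos pa, abs_of_pos pb] at hab
  rw [abs_of_pos pb, abs_of_pos pc] at hbc
  rw [abs_of_pos pc, abs_of_pos pa] at hca
  have hS : |S| ≤ 1 := Real.abs_sin_le_one t
  have hmove : ∀ x y : ℝ, |x - y| ≤ δ → C - y * S - δ ≤ C - x * S := fun x y h => by
    have h' : (x - y) * S ≤ δ := by
      calc (x - y) * S ≤ |x - y| * |S| := by rw [← abs_mul]; exact le_abs_self _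
        _ ≤ |x - y| * 1 := mul_le_mul_of_nonneg_left hS (abs_nonneg _)
        _ ≤ δ := by linarith
    linarith
  have hδ0 : 0 ≤ δ := (abs_nonneg _).trans ha₁
  -- after moving, at most one factor is negative
  have hQ : ∀ a' b' c', |a' - a| ≤ δ → |b' - b| ≤ δ → |c' - c| ≤ δ →
      (C - a' * S) * (C - b' * S) * (C - c' * S) ≤ fac a' t * fac b' t * fac c' t := by
    intro a' b' c' ha hb hc
    have ma := hmove a' a ha
    have mb := hmove b' b hb
    have mc := hmove c' c hc
    have key : ∀ p q r : ℝ, 0 ≤ q → 0 ≤ r → p * q * r ≤ max p 0 * max q 0 * max r 0 := fun p q r hq hr => by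
      rw [max_eq_left hq, max_eq_left hr]
      gcongr
      exact le_max_left _ _
    show _ ≤ max (C - a' * S) 0 * max (C - b' * S) 0 * max (C - c' * S) 0
    by_cases h1 : η / 2 ≤ C - a * S
    · by_cases h2 : η / 2 ≤ C - b * S
      · calc _ = (C - c' * S) * (C - a' * S) * (C - b' * S) := by ring
          _ ≤ _ := key _ _ _ (by linarith) (by linarith)
          _ = _ := by ring
      · calc _ = (C - b' * S) * (C - a' * S) * (C - c' * S) := by ring
          _ ≤ _ := key _ _ _ (by linarith) (by linarith)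
          _ = _ := by ring
    · exact key _ _ _ (by linarith) (by linarith)
  have e0 : fac a t * fac b t * fac c t = (C - a * S) * (C - b * S) * (C - c * S) := by
    simp only [fac, C, S, max_eq_left pa.le, max_eq_left pb.le, max_eq_left pc.le]
  have e1 : w₁ * ((C - a₁ * S) * (C - b₁ * S) * (C - c₁ * S)) +
      w₂ * ((C - a₂ * S) * (C - b₂ * S) * (C - c₂ * S)) = (C - a * S) * (C - b * S) * (C - c * S) := by
    linear_combination (-(w₁ * C ^ 2 * S)) * h1 + (-(w₂ * C ^ 2 * S)) * h1' + (w₁ * C * S ^ 2) * h2 +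
      (w₂ * C * S ^ 2) * h2' + (-(S ^ 3)) * h3 +
      (C ^ 3 - (a + b + c) * C ^ 2 * S + (a * b + b * c + c * a) * C * S ^ 2) * hw
  rw [e0, ← e1]
  exact add_le_add (mul_le_mul_of_nonneg_left (hQ _ _ _ ha₁ hb₁ hc₁) hw₁)
    (mul_le_mul_of_nonneg_left (hQ _ _ _ ha₂ hb₂ hc₂) hw₂)

/-- A function with nonzero derivative takes values on both sides of its value nearby. -/
theorem both_sides {P : ℝ → ℝ} {D : ℝ} (h : HasDerivAt P D 0) (hne : D ≠ 0) {Q : ℝ → Prop}
    (hQ : ∀ᶠ θ in 𝓝 (0 : ℝ), Q θ) : ∃ θ₁ θ₂, Q θ₁ ∧ Q θ₂ ∧ P θ₁ < P 0 ∧ P 0 < P θ₂ := by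
  have hsl := hasDerivAt_iff_tendsto_slope.1 h
  have hboth : ∀ᶠ θ in 𝓝[≠] (0 : ℝ), 0 < (P θ - P 0) / θ * D := by
    filter_upwards [(hsl.mul_const D).eventually (lt_mem_nhds (mul_self_pos.2 hne))] with θ hθ
    rwa [slope_def_field, sub_zero] at hθ
  obtain ⟨θp, ⟨hp1, hp2⟩, hp3⟩ := ((hboth.filter_mono (nhdsGT_le_nhdsNE 0)).and
    (hQ.filter_mono nhdsWithin_le_nhds) |>.and self_mem_nhdsWithin).exists (f := 𝓝[>] (0 : ℝ))
  obtain ⟨θn, ⟨hn1, hn2⟩, hn3⟩ := ((hboth.filter_mono (nhdsLT_le_nhdsNE 0)).and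
    (hQ.filter_mono nhdsWithin_le_nhds) |>.and self_mem_nhdsWithin).exists (f := 𝓝[<] (0 : ℝ))
  replace hp3 : 0 < θp := hp3
  replace hn3 : θn < 0 := hn3
  generalize hx : P θp - P 0 = x at hp1
  generalize hy : P θn - P 0 = y at hn1
  have ex : x / θp * D * θp = x * D := by field_simp
  have ey : y / θn * D * θn = y * D := by field_simp [hn3.ne]
  have hp : 0 < x * D := ex ▸ mul_pos hp1 hp3
  have hn : y * D < 0 := ey ▸ mul_neg_of_pos_of_neg hn1 hn3
  rcases lt_or_gt_of_ne hne with hD | hD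
  · exact ⟨θp, θn, hp2, hn2, by nlinarith, by nlinarith⟩
  · exact ⟨θn, θp, hn2, hp2, by nlinarith, by nlinarith⟩

/-- Triples near a given one with the same two symmetric functions, on both sides of it. -/
theorem triple_move {a b c : ℝ} (hab : a ≠ b) (hbc : b ≠ c) (hca : c ≠ a) {δ : ℝ} (hδ : 0 < δ) :
    ∃ a₁ b₁ c₁ a₂ b₂ c₂ : ℝ, (|a₁ - a| ≤ δ ∧ |b₁ - b| ≤ δ ∧ |c₁ - c| ≤ δ) ∧
      (|a₂ - a| ≤ δ ∧ |b₂ - b| ≤ δ ∧ |c₂ - c| ≤ δ) ∧
      (a₁ + b₁ + c₁ = a + b + c ∧ a₁ * b₁ + b₁ * c₁ + c₁ * a₁ = a * b + b * c + c * a) ∧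
      (a₂ + b₂ + c₂ = a + b + c ∧ a₂ * b₂ + b₂ * c₂ + c₂ * a₂ = a * b + b * c + c * a) ∧
      a₁ * b₁ * c₁ < a * b * c ∧ a * b * c < a₂ * b₂ * c₂ := by
  set μ := (a + b + c) / 3 with hμ
  set r := (Real.sqrt 3)⁻¹ with hr
  have hr0 : 0 < r := by rw [hr]; positivity
  have hr2 : r ^ 2 * 3 = 1 := by
    rw [hr, inv_pow, Real.sq_sqrt (by norm_num)]; norm_num
  set A : ℝ → ℝ := fun θ => μ + Real.cos θ * (a - μ) + Real.sin θ * (r * (b - c)) with hA
  set B : ℝ → ℝ := fun θ => μ + Real.cos θ * (b - μ) + Real.sin θ * (r * (c - a)) with hB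
  set C : ℝ → ℝ := fun θ => μ + Real.cos θ * (c - μ) + Real.sin θ * (r * (a - b)) with hC
  have hsum : ∀ θ, A θ + B θ + C θ = a + b + c := fun θ => by
    simp only [hA, hB, hC, hμ]; ring
  have hsq : ∀ θ, A θ ^ 2 + B θ ^ 2 + C θ ^ 2 = a ^ 2 + b ^ 2 + c ^ 2 := fun θ => by
    have hs := Real.sin_sq_add_cos_sq θ
    simp only [hA, hB, hC, hμ]
    linear_combination ((a - (a+b+c)/3) ^ 2 + (b - (a+b+c)/3) ^ 2 + (c - (a+b+c)/3) ^ 2) * hs +
      (Real.sin θ ^ 2 * ((b - c) ^ 2 + (c - a) ^ 2 + (a - b) ^ 2) / 3) * hr2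
  have he2 : ∀ θ, A θ * B θ + B θ * C θ + C θ * A θ = a * b + b * c + c * a := fun θ => by
    linear_combination (1 / 2 : ℝ) * (A θ + B θ + C θ + a + b + c) * hsum θ - (1 / 2 : ℝ) * hsq θ
  set P : ℝ → ℝ := fun θ => A θ * B θ * C θ with hP
  have hd1 : ∀ (x y : ℝ), HasDerivAt (fun θ => μ + Real.cos θ * x + Real.sin θ * y) y 0 := fun x y => by
    simpa using (((Real.hasDerivAt_cos 0).mul_const x).const_add μ).fun_add ((Real.hasDerivAt_sin 0).mul_const y)
  have hA0 : A 0 = a := by simp [hA]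
  have hB0 : B 0 = b := by simp [hB]
  have hC0 : C 0 = c := by simp [hC]
  have hP0 : P 0 = a * b * c := by simp [hP, hA0, hB0, hC0]
  have hPd : HasDerivAt P (-r * ((a - b) * (b - c) * (c - a))) 0 := by
    refine (((hd1 _ _).fun_mul (hd1 _ _)).fun_mul (hd1 _ _)).congr_deriv ?_
    simp only [Real.cos_zero, Real.sin_zero, one_mul, zero_mul, add_zero, add_sub_cancel]
    ring
  have hne : -r * ((a - b) * (b - c) * (c - a)) ≠ 0 :=
    mul_ne_zero (neg_ne_zero.2 hr0.ne') (mul_ne_zero (mul_ne_zero (sub_ne_zero.2 hab) (sub_ne_zero.2 hbc))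
      (sub_ne_zero.2 hca))
  have hclose : ∀ᶠ θ in 𝓝 (0 : ℝ), |A θ - a| ≤ δ ∧ |B θ - b| ≤ δ ∧ |C θ - c| ≤ δ := by
    have h : ∀ (f : ℝ → ℝ) (x : ℝ), Continuous f → f 0 = x → ∀ᶠ θ in 𝓝 (0 : ℝ), |f θ - x| ≤ δ :=
      fun f x hf h0 => by
        filter_upwards [hf.continuousAt.eventually (Metric.ball_mem_nhds (f 0) hδ)] with θ hθ
        rw [Real.dist_eq, h0] at hθ
        exact hθ.le
    exact (h A a (by simp only [hA]; fun_prop) hA0).and
      ((h B b (by simp only [hB]; fun_prop) hB0).and (h C c (by simp only [hC]; fun_prop) hC0))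
  obtain ⟨θ₁, θ₂, hc₁, hc₂, hlt₁, hlt₂⟩ := both_sides hPd hne hclose
  rw [hP0] at hlt₁ hlt₂
  exact ⟨A θ₁, B θ₁, C θ₁, A θ₂, B θ₂, C θ₂, hc₁, hc₂, ⟨hsum _, he2 _⟩, ⟨hsum _, he2 _⟩, hlt₁, hlt₂⟩

/-- Trace-free vectors of squared length `m`. -/
def shell (m : ℕ) : Set (Fin m → ℝ) := {k | ∑ i, k i = 0 ∧ ∑ i, k i ^ 2 = m}

theorem isCompact_shell (m : ℕ) : IsCompact (shell m) := by
  refine (isCompact_univ_pi fun _ => isCompact_Icc (a := -((m : ℝ) + 1)) (b := (m : ℝ) + 1)).of_isClosed_subset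
    (IsClosed.inter (isClosed_eq (by fun_prop) continuous_const)
      (isClosed_eq (by fun_prop) continuous_const)) fun k hk i _ => ?_
  have h1 : k i ^ 2 ≤ m := hk.2 ▸ Finset.single_le_sum (fun j _ => sq_nonneg (k j)) (Finset.mem_univ i)
  constructor <;> nlinarith [(Nat.cast_nonneg m : (0 : ℝ) ≤ m), sq_nonneg (k i + 1), sq_nonneg (k i - 1)]

/-- A maximiser with at most two values. -/
theorem exists_two_valued {k₀ : Fin m → ℝ} (hk₀ : k₀ ∈ shell m) :
    ∃ k ∈ shell m, J k₀ ≤ J k ∧ ∀ i j l, k i = k j ∨ k j = k l ∨ k l = k i := by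
  classical
  obtain ⟨k₁, hk₁, hmax⟩ := (isCompact_shell m).exists_isMaxOn ⟨k₀, hk₀⟩ continuous_J.continuousOn
  set T := shell m ∩ {k | J k = J k₁} with hT
  have hTc : IsCompact T := (isCompact_shell m).inter_right (isClosed_eq continuous_J continuous_const)
  obtain ⟨k, ⟨hk, hkJ⟩, h3⟩ := hTc.exists_isMaxOn ⟨k₁, hk₁, rfl⟩
    (show Continuous fun k : Fin m → ℝ => ∑ i, k i ^ 3 by fun_prop).continuousOn
  refine ⟨k, hk, (hmax hk₀).trans_eq (hkJ : J k = J k₁).symm, fun i j l => ?_⟩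
  by_contra hne
  simp only [not_or] at hne
  obtain ⟨hij, hjl, hli⟩ := hne
  have nij : i ≠ j := fun h => hij (h ▸ rfl)
  have njl : j ≠ l := fun h => hjl (h ▸ rfl)
  have nli : l ≠ i := fun h => hli (h ▸ rfl)
  obtain ⟨η₁, hη₁, s₁⟩ := pair_sep hij
  obtain ⟨η₂, hη₂, s₂⟩ := pair_sep hjl
  obtain ⟨η₃, hη₃, s₃⟩ := pair_sep hli
  set η := min η₁ (min η₂ η₃) with hη
  have hη0 : 0 < η := lt_min hη₁ (lt_min hη₂ hη₃)
  obtain ⟨a₁, b₁, c₁, a₂, b₂, c₂, ⟨qa₁, qb₁, qc₁⟩, ⟨qa₂, qb₂, qc₂⟩, ⟨u1, u2⟩, ⟨v1, v2⟩, hlo, hhi⟩ :=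
    triple_move hij hjl hli (δ := η / 4) (by linarith)
  set p := k i * k j * k l with hp
  set w₁ := (a₂ * b₂ * c₂ - p) / (a₂ * b₂ * c₂ - a₁ * b₁ * c₁) with hw₁
  set w₂ := (p - a₁ * b₁ * c₁) / (a₂ * b₂ * c₂ - a₁ * b₁ * c₁) with hw₂
  have hden : 0 < a₂ * b₂ * c₂ - a₁ * b₁ * c₁ := by linarith
  have w₁0 : 0 < w₁ := div_pos (by linarith) hden
  have w₂0 : 0 < w₂ := div_pos (by linarith) hden
  have hw : w₁ + w₂ = 1 := by rw [hw₁, hw₂, ← add_div, div_eq_one_iff_eq hden.ne']; ring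
  have h3' : w₁ * (a₁ * b₁ * c₁) + w₂ * (a₂ * b₂ * c₂) = p := by rw [hw₁, hw₂]; field_simp; ring
  set upd : ℝ → ℝ → ℝ → Fin m → ℝ :=
    fun x y z => Function.update (Function.update (Function.update k i x) j y) l z with hupd
  set R := ((Finset.univ.erase i).erase j).erase l with hR
  have hmi : i ∈ (Finset.univ : Finset (Fin m)) := Finset.mem_univ i
  have hmj : j ∈ Finset.univ.erase i := Finset.mem_erase.2 ⟨nij.symm, Finset.mem_univ j⟩
  have hml : l ∈ (Finset.univ.erase i).erase j :=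
    Finset.mem_erase.2 ⟨njl.symm, Finset.mem_erase.2 ⟨nli, Finset.mem_univ l⟩⟩
  have hvals : ∀ x y z, upd x y z i = x ∧ upd x y z j = y ∧ upd x y z l = z ∧
      ∀ q ∈ R, upd x y z q = k q := fun x y z => by
    refine ⟨?_, ?_, ?_, fun q hq => ?_⟩ <;> simp only [hupd]
    · rw [Function.update_of_ne nli.symm, Function.update_of_ne nij, Function.update_self]
    · rw [Function.update_of_ne njl, Function.update_self]
    · rw [Function.update_self]
    · simp only [hR, Finset.mem_erase] at hq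
      rw [Function.update_of_ne hq.1, Function.update_of_ne hq.2.1, Function.update_of_ne hq.2.2.1]
  have hsplit : ∀ (g : ℝ → ℝ) (x y z : ℝ),
      ∑ q, g (upd x y z q) = g x + g y + g z + ∑ q ∈ R, g (k q) := fun g x y z => by
    obtain ⟨e1, e2, e3, e4⟩ := hvals x y z
    rw [← Finset.add_sum_erase _ _ hmi, ← Finset.add_sum_erase _ _ hmj, ← Finset.add_sum_erase _ _ hml,
      e1, e2, e3, ← hR, Finset.sum_congr rfl fun q hq => show g (upd x y z q) = g (k q) by rw [e4 q hq]]
    ring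
  have hprod : ∀ x y z t, phi (upd x y z) t = fac x t * fac y t * fac z t * ∏ q ∈ R, fac (k q) t :=
    fun x y z t => by
      obtain ⟨e1, e2, e3, e4⟩ := hvals x y z
      rw [phi, ← Finset.mul_prod_erase _ _ hmi, ← Finset.mul_prod_erase _ _ hmj,
        ← Finset.mul_prod_erase _ _ hml, e1, e2, e3, ← hR,
        Finset.prod_congr rfl fun q hq => show fac (upd x y z q) t = fac (k q) t by rw [e4 q hq]]
      ring
  have hself : upd (k i) (k j) (k l) = k := by
    simp only [hupd, Function.update_eq_self]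
  have hmem : ∀ x y z, x + y + z = k i + k j + k l → x * y + y * z + z * x = k i * k j + k j * k l + k l * k i →
      upd x y z ∈ shell m := fun x y z e1 e2 => by
    constructor
    · have a := hsplit id x y z
      have b := hsplit id (k i) (k j) (k l)
      simp only [id, hself] at a b
      linarith [hk.1]
    · have a := hsplit (· ^ 2) x y z
      have b := hsplit (· ^ 2) (k i) (k j) (k l)
      simp only [hself] at a b
      have : x ^ 2 + y ^ 2 + z ^ 2 = k i ^ 2 + k j ^ 2 + k l ^ 2 := by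
        linear_combination (x + y + z + (k i + k j + k l)) * e1 - 2 * e2
      linarith [hk.2]
  have hconv : ∀ t, phi k t ≤ w₁ * phi (upd a₁ b₁ c₁) t + w₂ * phi (upd a₂ b₂ c₂) t := fun t => by
    have key := triple_convex (η := η) (δ := η / 4) (t := t) u1 u2 v1 v2 w₁0.le w₂0.le hw h3'
      ((min_le_left _ _).trans (s₁ t)) (((min_le_right _ _).trans (min_le_left _ _)).trans (s₂ t))
      (((min_le_right _ _).trans (min_le_right _ _)).trans (s₃ t)) (by linarith) qa₁ qb₁ qc₁ qa₂ qb₂ qc₂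
    rw [hprod, hprod, ← hself, hprod, hself]
    have hr : 0 ≤ ∏ q ∈ R, fac (k q) t := Finset.prod_nonneg fun q _ => fac_nonneg _ _
    calc _ ≤ _ * ∏ q ∈ R, fac (k q) t := mul_le_mul_of_nonneg_right key hr
      _ = _ := by ring
  have hI : ∀ (c : ℝ) (v : Fin m → ℝ), IntervalIntegrable (fun t => c * phi v t) volume (-(π / 2)) (π / 2) :=
    fun c v => (continuous_const.mul (continuous_phi_right v)).intervalIntegrable _ _
  have hJ : J k ≤ w₁ * J (upd a₁ b₁ c₁) + w₂ * J (upd a₂ b₂ c₂) := by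
    unfold J
    rw [← intervalIntegral.integral_const_mul, ← intervalIntegral.integral_const_mul,
      ← intervalIntegral.integral_add (hI _ _) (hI _ _)]
    exact intervalIntegral.integral_mono_on (by linarith [Real.pi_pos])
      ((continuous_phi_right _).intervalIntegrable _ _) ((hI _ _).add (hI _ _)) fun t _ => hconv t
  have m₁ := hmem _ _ _ u1 u2
  have m₂ := hmem _ _ _ v1 v2
  have g₁ : J (upd a₁ b₁ c₁) ≤ J k₁ := hmax m₁
  have g₂ : J (upd a₂ b₂ c₂) ≤ J k₁ := hmax m₂
  have hkJ' : J k = J k₁ := hkJ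
  have hJ₂ : J (upd a₂ b₂ c₂) = J k₁ := by
    refine le_antisymm g₂ ?_
    by_contra hlt
    push Not at hlt
    have := mul_lt_mul_of_pos_left hlt w₂0
    have := mul_le_mul_of_nonneg_left g₁ w₁0.le
    have : w₁ * J k₁ + w₂ * J k₁ = J k₁ := by rw [← add_mul, hw, one_mul]
    linarith
  have hT2 : ∑ q, upd a₂ b₂ c₂ q ^ 3 ≤ ∑ q, k q ^ 3 := h3 ⟨m₂, hJ₂⟩
  have a := hsplit (· ^ 3) a₂ b₂ c₂
  have b := hsplit (· ^ 3) (k i) (k j) (k l)
  simp only [hself] at a b
  rw [a, b] at hT2
  have e : a₂ ^ 3 + b₂ ^ 3 + c₂ ^ 3 - (k i ^ 3 + k j ^ 3 + k l ^ 3) =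
      3 * (a₂ * b₂ * c₂ - k i * k j * k l) := by
    have e' : ∀ x y z : ℝ, x ^ 3 + y ^ 3 + z ^ 3 =
        (x + y + z) ^ 3 - 3 * (x + y + z) * (x * y + y * z + z * x) + 3 * (x * y * z) := fun x y z => by ring
    rw [e', e', v1, v2]; ring
  linarith

/-- The trigonometric moments. -/
noncomputable def W (j l : ℕ) : ℝ := ∫ t in (0 : ℝ)..(π / 2), Real.cos t ^ j * Real.sin t ^ l

theorem W_shift (j l : ℕ) :
    ((j : ℝ) + l + 2) * W (j + 2) l = ((j : ℝ) + 1) * W j l ∧
      ((j : ℝ) + l + 2) * W j (l + 2) = ((l : ℝ) + 1) * W j l := by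
  have hI : ∀ a b : ℕ, IntervalIntegrable (fun t => Real.cos t ^ a * Real.sin t ^ b) volume 0 (π / 2) :=
    fun a b => (by fun_prop : Continuous fun t => Real.cos t ^ a * Real.sin t ^ b).intervalIntegrable _ _
  have hadd : W (j + 2) l + W j (l + 2) = W j l := by
    unfold W
    rw [← intervalIntegral.integral_add (hI _ _) (hI _ _)]
    congr 1; funext t
    linear_combination (Real.cos t ^ j * Real.sin t ^ l) * Real.sin_sq_add_cos_sq t
  have hd : ∀ t ∈ uIcc (0 : ℝ) (π / 2),
      HasDerivAt (fun t => Real.cos t ^ (j + 1) * Real.sin t ^ (l + 1))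
        (((l : ℝ) + 1) * (Real.cos t ^ (j + 2) * Real.sin t ^ l) -
          ((j : ℝ) + 1) * (Real.cos t ^ j * Real.sin t ^ (l + 2))) t := fun t _ => by
    refine (((Real.hasDerivAt_cos t).fun_pow (j + 1)).fun_mul ((Real.hasDerivAt_sin t).fun_pow (l + 1))).congr_deriv ?_
    simp only [Nat.add_sub_cancel]
    push_cast
    ring
  have h := intervalIntegral.integral_eq_sub_of_hasDerivAt hd
    (((hI _ _).const_mul _).sub ((hI _ _).const_mul _))
  rw [intervalIntegral.integral_sub ((hI _ _).const_mul _) ((hI _ _).const_mul _),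
    intervalIntegral.integral_const_mul, intervalIntegral.integral_const_mul] at h
  simp only [Real.cos_pi_div_two, Real.sin_zero, zero_pow (Nat.succ_ne_zero _), zero_mul, mul_zero,
    sub_zero] at h
  change ((l : ℝ) + 1) * W (j + 2) l - ((j : ℝ) + 1) * W j (l + 2) = 0 at h
  constructor
  · linear_combination h + ((j : ℝ) + 1) * hadd
  · linear_combination -h + ((l : ℝ) + 1) * hadd

theorem W_eq : ∀ j l : ℕ, W j l = Real.Gamma (((j : ℝ) + 1) / 2) * Real.Gamma (((l : ℝ) + 1) / 2) /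
    (2 * Real.Gamma (((j : ℝ) + l + 2) / 2))
  | 0, 0 => by
      have : W 0 0 = π / 2 := by simp [W]
      rw [this]
      norm_num [Real.Gamma_one_half_eq, Real.Gamma_one]
      rw [Real.mul_self_sqrt Real.pi_pos.le]
  | 1, 0 => by
      have : W 1 0 = 1 := by simp [W]
      rw [this]
      norm_num
      rw [show (3 : ℝ) / 2 = 1 / 2 + 1 by norm_num, Real.Gamma_add_one (by norm_num), Real.Gamma_one_half_eq]
      have := Real.pi_pos
      field_simp
  | 0, 1 => by
      have : W 0 1 = 1 := by simp [W]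
      rw [this]
      norm_num
      rw [show (3 : ℝ) / 2 = 1 / 2 + 1 by norm_num, Real.Gamma_add_one (by norm_num), Real.Gamma_one_half_eq]
      have := Real.pi_pos
      field_simp
  | 1, 1 => by
      have : W 1 1 = 1 / 2 := by
        have h := integral_sin_pow_mul_cos_pow_odd (a := 0) (b := π / 2) 1 0
        simp only [pow_one, mul_zero, zero_add, pow_zero, mul_one, Real.sin_zero,
          Real.sin_pi_div_two] at h
        unfold W
        simp only [pow_one]
        rw [show (fun t => Real.cos t * Real.sin t) = fun t => Real.sin t * Real.cos t from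
          funext fun t => mul_comm _ _, h]
        simp
      rw [this]
      norm_num
  | j + 2, l => by
      have h := (W_shift j l).1
      rw [W_eq j l] at h
      push_cast
      rw [show ((j : ℝ) + 2 + 1) / 2 = ((j : ℝ) + 1) / 2 + 1 by ring,
        show ((j : ℝ) + 2 + l + 2) / 2 = ((j : ℝ) + l + 2) / 2 + 1 by ring,
        Real.Gamma_add_one (by positivity), Real.Gamma_add_one (by positivity)]
      have hg : 0 < Real.Gamma (((j : ℝ) + l + 2) / 2) := Real.Gamma_pos_of_pos (by positivity)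
      have hpos : (0 : ℝ) < (j : ℝ) + l + 2 := by positivity
      apply mul_left_cancel₀ hpos.ne'
      rw [h]
      field_simp
  | 0, l + 2 => by
      have h := (W_shift 0 l).2
      rw [W_eq 0 l] at h
      push_cast at h ⊢
      rw [show ((l : ℝ) + 2 + 1) / 2 = ((l : ℝ) + 1) / 2 + 1 by ring,
        show ((0 : ℝ) + ((l : ℝ) + 2) + 2) / 2 = ((0 : ℝ) + l + 2) / 2 + 1 by ring,
        Real.Gamma_add_one (by positivity), Real.Gamma_add_one (by positivity)]
      have hg : 0 < Real.Gamma (((0 : ℝ) + l + 2) / 2) := Real.Gamma_pos_of_pos (by positivity)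
      have hpos : (0 : ℝ) < (0 : ℝ) + l + 2 := by positivity
      apply mul_left_cancel₀ hpos.ne'
      rw [h]
      field_simp
  | 1, l + 2 => by
      have h := (W_shift 1 l).2
      rw [W_eq 1 l] at h
      push_cast at h ⊢
      rw [show ((l : ℝ) + 2 + 1) / 2 = ((l : ℝ) + 1) / 2 + 1 by ring,
        show ((1 : ℝ) + ((l : ℝ) + 2) + 2) / 2 = ((1 : ℝ) + l + 2) / 2 + 1 by ring,
        Real.Gamma_add_one (by positivity), Real.Gamma_add_one (by positivity)]
      have hg : 0 < Real.Gamma (((1 : ℝ) + l + 2) / 2) := Real.Gamma_pos_of_pos (by positivity)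
      have hpos : (0 : ℝ) < (1 : ℝ) + l + 2 := by positivity
      apply mul_left_cancel₀ hpos.ne'
      rw [h]
      field_simp

/-- The Jacobian integral of a vector with two values. -/
theorem J_two {j l : ℕ} (hj : 1 ≤ j) (hl : 1 ≤ l) (hjl : j + l = m) {k : Fin m → ℝ} {s : Finset (Fin m)}
    (hs : s.card = j) (hka : ∀ i ∈ s, k i = √((l : ℝ) / j))
    (hkb : ∀ i ∉ s, k i = -√((j : ℝ) / l)) :
    J k * cliffordVolume m j = sphereArea (m + 1) := by
  have hj0 : (0 : ℝ) < j := by exact_mod_cast hj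
  have hl0 : (0 : ℝ) < l := by exact_mod_cast hl
  have hm0 : (0 : ℝ) < m := by rw [← hjl]; push_cast; positivity
  have hmc : (m : ℝ) = j + l := by rw [← hjl]; push_cast; ring
  set a := √((l : ℝ) / j) with ha
  have ha0 : 0 < a := Real.sqrt_pos.2 (by positivity)
  have hb : √((j : ℝ) / l) = 1 / a := by
    rw [ha, one_div, ← Real.sqrt_inv, inv_div]
  set α := Real.arctan a with hα
  have hα0 : 0 < α := by rw [hα]; simpa using Real.arctan_strictMono ha0
  have hα2 : α < π / 2 := Real.arctan_lt_pi_div_two a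
  have hcα : 0 < Real.cos α := Real.cos_arctan_pos a
  have hsα : 0 < Real.sin α := Real.sin_pos_of_pos_of_lt_pi hα0 (by linarith)
  have htan : a = Real.sin α / Real.cos α := by rw [← Real.tan_eq_sin_div_cos, hα, Real.tan_arctan]
  have hf1 : ∀ t, fac a t = max (Real.cos (t + α)) 0 / Real.cos α := fun t => by
    rw [fac, max_div_div_right hcα.le (Real.cos (t + α)) 0 |>.symm, zero_div, Real.cos_add, htan]
    congr 1
    field_simp
  have hf2 : ∀ t, fac (-(1 / a)) t = max (Real.sin (t + α)) 0 / Real.sin α := fun t => by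
    rw [fac, max_div_div_right hsα.le (Real.sin (t + α)) 0 |>.symm, zero_div, Real.sin_add, htan]
    congr 1
    field_simp
    ring
  have hsc : sᶜ.card = l := by rw [Finset.card_compl, Fintype.card_fin, hs]; omega
  have hphi : ∀ t, phi k t = ((Real.cos α) ^ j * (Real.sin α) ^ l)⁻¹ *
      (max (Real.cos (t + α)) 0 ^ j * max (Real.sin (t + α)) 0 ^ l) := fun t => by
    rw [phi, ← Finset.prod_mul_prod_compl s]
    rw [Finset.prod_congr rfl fun i hi => show fac (k i) t = fac a t by rw [hka i hi],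
      Finset.prod_congr rfl fun i hi => show fac (k i) t = fac (-(1 / a)) t by
        rw [hkb i (Finset.mem_compl.1 hi), hb],
      Finset.prod_const, Finset.prod_const, hs, hsc, hf1, hf2, div_pow, div_pow]
    field_simp
  have hint : ∫ t in (-(π / 2))..(π / 2), max (Real.cos (t + α)) 0 ^ j * max (Real.sin (t + α)) 0 ^ l =
      W j l := by
    set g : ℝ → ℝ := fun x => max (Real.cos x) 0 ^ j * max (Real.sin x) 0 ^ l with hg
    have hgc : Continuous g := by simp only [hg]; fun_prop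
    change (∫ t in (-(π / 2))..(π / 2), g (t + α)) = W j l
    rw [intervalIntegral.integral_comp_add_right g α,
      ← intervalIntegral.integral_add_adjacent_intervals (b := 0) (hgc.intervalIntegrable _ _)
        (hgc.intervalIntegrable _ _),
      ← intervalIntegral.integral_add_adjacent_intervals (a := (0 : ℝ)) (b := π / 2)
        (hgc.intervalIntegrable _ _) (hgc.intervalIntegrable _ _)]
    have z1 : ∫ x in (-(π / 2) + α)..0, g x = 0 := by
      refine intervalIntegral.integral_zero_ae (Eventually.of_forall fun x hx => ?_) |>.trans rfl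
      rw [uIoc_of_le (by linarith)] at hx
      have : Real.sin x ≤ 0 := Real.sin_nonpos_of_nonpos_of_neg_pi_le hx.2 (by linarith [hx.1])
      simp [hg, max_eq_right this, Nat.one_le_iff_ne_zero.1 hl]
    have z2 : ∫ x in (π / 2)..(π / 2 + α), g x = 0 := by
      refine intervalIntegral.integral_zero_ae (Eventually.of_forall fun x hx => ?_) |>.trans rfl
      rw [uIoc_of_le (by linarith)] at hx
      have : Real.cos x ≤ 0 := Real.cos_nonpos_of_pi_div_two_le_of_le hx.1.le (by linarith [hx.2])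
      simp [hg, max_eq_right this, Nat.one_le_iff_ne_zero.1 hj]
    rw [z1, z2, zero_add, add_zero]
    refine intervalIntegral.integral_congr fun x hx => ?_
    rw [uIcc_of_le (by linarith)] at hx
    simp only [hg]
    rw [max_eq_left (Real.cos_nonneg_of_mem_Icc ⟨by linarith [hx.1], hx.2⟩),
      max_eq_left (Real.sin_nonneg_of_nonneg_of_le_pi hx.1 (by linarith [hx.2]))]
  have hJ : J k = ((Real.cos α) ^ j * (Real.sin α) ^ l)⁻¹ * W j l := by
    rw [J, intervalIntegral.integral_congr (fun t _ => hphi t), intervalIntegral.integral_const_mul, hint]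
  have hc2 : Real.cos α ^ 2 = (j : ℝ) / m := by
    rw [hα, Real.cos_sq_arctan, ha, Real.sq_sqrt (by positivity), hmc]
    field_simp
  have hs2 : Real.sin α ^ 2 = (l : ℝ) / m := by
    have := Real.sin_sq_add_cos_sq α
    rw [hc2] at this
    rw [eq_sub_of_add_eq this, hmc]
    field_simp
    ring
  have hcp : ((j : ℝ) / m) ^ ((j : ℝ) / 2) = Real.cos α ^ j := by
    rw [← hc2, ← Real.rpow_natCast, ← Real.rpow_mul hcα.le, ← Real.rpow_natCast]
    congr 1; push_cast; ring
  have hsp : (((m : ℝ) - j) / m) ^ (((m : ℝ) - j) / 2) = Real.sin α ^ l := by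
    rw [show (m : ℝ) - j = l by rw [hmc]; ring, ← hs2, ← Real.rpow_natCast, ← Real.rpow_mul hsα.le,
      ← Real.rpow_natCast]
    congr 1; push_cast; ring
  rw [hJ, cliffordVolume, hcp, hsp, W_eq, show m - j = l by omega, sphereArea, sphereArea, sphereArea]
  push_cast
  rw [show ((m : ℝ) + 1 + 1) / 2 = ((j : ℝ) + l + 2) / 2 by rw [hmc]; ring]
  have g1 : 0 < Real.Gamma (((j : ℝ) + 1) / 2) := Real.Gamma_pos_of_pos (by positivity)
  have g2 : 0 < Real.Gamma (((l : ℝ) + 1) / 2) := Real.Gamma_pos_of_pos (by positivity)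
  have g3 : 0 < Real.Gamma (((j : ℝ) + l + 2) / 2) := Real.Gamma_pos_of_pos (by positivity)
  have hpi : π ^ (((j : ℝ) + 1) / 2) * π ^ (((l : ℝ) + 1) / 2) = π ^ (((j : ℝ) + l + 2) / 2) := by
    rw [← Real.rpow_add Real.pi_pos]; congr 1; ring
  rw [← hpi]
  field_simp

/-- The extremal property of the Clifford curvatures. -/
theorem J_le (hm : 2 ≤ m) : ∃ j : ℕ, 1 ≤ j ∧ j < m ∧ ∀ k : Fin m → ℝ, ∑ i, k i = 0 →
    (m : ℝ) ≤ ∑ i, k i ^ 2 → J k ≤ sphereArea (m + 1) / cliffordVolume m j := by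
  classical
  obtain ⟨j₀, hj₀, hmin⟩ := (Finset.Ico 1 m).exists_min_image (fun j => cliffordVolume m j)
    ⟨1, Finset.mem_Ico.2 ⟨le_rfl, by omega⟩⟩
  rw [Finset.mem_Ico] at hj₀
  refine ⟨j₀, hj₀.1, hj₀.2, fun k h0 hS => ?_⟩
  have hm0 : (0 : ℝ) < m := by exact_mod_cast (by omega : 0 < m)
  set S := ∑ i, k i ^ 2 with hSdef
  have hS0 : 0 < S := by linarith
  set l := √(S / m) with hl
  have hl0 : 0 < l := Real.sqrt_pos.2 (by positivity)
  have hl1 : 1 ≤ l := Real.one_le_sqrt.2 (by rw [le_div_iff₀ hm0]; linarith)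
  have hk' : l⁻¹ • k ∈ shell m := by
    constructor
    · simp only [Pi.smul_apply, smul_eq_mul, ← Finset.mul_sum, h0, mul_zero]
    · simp only [Pi.smul_apply, smul_eq_mul, mul_pow, ← Finset.mul_sum, ← hSdef, inv_pow, hl,
        Real.sq_sqrt (by positivity : (0 : ℝ) ≤ S / m)]
      field_simp
  have h1 : J k ≤ J (l⁻¹ • k) := by
    have := J_scale (k := l⁻¹ • k) (by omega) hk'.1 hl1
    rwa [smul_smul, mul_inv_cancel₀ hl0.ne', one_smul] at this
  obtain ⟨v, hv, h2, htwo⟩ := exists_two_valued hk'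
  refine h1.trans (h2.trans ?_)
  obtain ⟨i₀, hi₀⟩ : ∃ i, 0 < v i := by
    by_contra h
    push Not at h
    have hz := (Finset.sum_eq_zero_iff_of_nonpos fun i _ => h i).1 hv.1
    have := hv.2
    rw [Finset.sum_eq_zero fun i hi => by rw [hz i hi]; simp] at this
    linarith
  obtain ⟨i₁, hi₁⟩ : ∃ i, v i < 0 := by
    by_contra h
    push Not at h
    have hz := (Finset.sum_eq_zero_iff_of_nonneg fun i _ => h i).1 hv.1
    exact hi₀.ne' (hz i₀ (Finset.mem_univ _))
  set s := Finset.univ.filter fun i => v i = v i₀ with hsdef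
  have hout : ∀ i ∉ s, v i = v i₁ := fun i hi => by
    simp only [hsdef, Finset.mem_filter, Finset.mem_univ, true_and] at hi
    rcases htwo i i₀ i₁ with h | h | h
    · exact absurd h hi
    · linarith
    · exact h.symm
  set p := v i₀ with hp
  set q := v i₁ with hq
  set j := s.card with hj
  set n' := sᶜ.card with hn'
  have hj1 : 1 ≤ j := Finset.card_pos.2 ⟨i₀, by simp [hsdef, hp]⟩
  have hn1 : 1 ≤ n' := Finset.card_pos.2 ⟨i₁, by
    simp only [hsdef, Finset.mem_compl, Finset.mem_filter, Finset.mem_univ, true_and]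
    intro h; linarith⟩
  have hjn : j + n' = m := by rw [hj, hn', Finset.card_add_card_compl, Fintype.card_fin]
  have hsplit : ∀ g : ℝ → ℝ, ∑ i, g (v i) = (j : ℝ) * g p + (n' : ℝ) * g q := fun g => by
    rw [← Finset.sum_add_sum_compl s,
      Finset.sum_congr rfl fun i hi => show g (v i) = g p by rw [(Finset.mem_filter.1 hi).2],
      Finset.sum_congr rfl fun i hi => show g (v i) = g q by rw [hout i (Finset.mem_compl.1 hi)],
      Finset.sum_const, Finset.sum_const, nsmul_eq_mul, nsmul_eq_mul]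
  have e1 := hsplit id
  have e2 := hsplit (· ^ 2)
  simp only [id] at e1 e2
  rw [hv.1] at e1
  rw [hv.2] at e2
  have hj0 : (0 : ℝ) < j := by exact_mod_cast hj1
  have hn0 : (0 : ℝ) < n' := by exact_mod_cast hn1
  have hmc : (m : ℝ) = j + n' := by rw [← hjn]; push_cast; ring
  have hqv : q = -((j : ℝ) * p) / n' := by field_simp; linarith
  have hp2 : p ^ 2 = (n' : ℝ) / j := by
    rw [hqv, hmc] at e2
    field_simp at e2 ⊢
    nlinarith
  have hq2 : q ^ 2 = (j : ℝ) / n' := by
    rw [hqv, div_pow, neg_sq, mul_pow, hp2]; field_simp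
  have hps : p = √((n' : ℝ) / j) := by rw [← hp2, Real.sqrt_sq hi₀.le]
  have hqs : q = -√((j : ℝ) / n') := by rw [← hq2, Real.sqrt_sq_eq_abs, abs_of_neg hi₁, neg_neg]
  have key := J_two (m := m) (k := v) (s := s) hj1 hn1 hjn rfl
    (fun i hi => by rw [(Finset.mem_filter.1 hi).2]; exact hps) (fun i hi => by rw [hout i hi]; exact hqs)
  have hjm : j < m := by omega
  rw [le_div_iff₀ (cliffordVolume_pos hj₀.1 hj₀.2), ← key]
  exact mul_le_mul_of_nonneg_left (hmin j (Finset.mem_Ico.2 ⟨hj1, hjm⟩))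
    (intervalIntegral.integral_nonneg (by linarith [Real.pi_pos]) fun t _ => phi_nonneg _ _)

end Vale.Agent.P224
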