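import Vale.Agent.P224.Defs

/-!
P224: splitting the domain of the sweep map into its three factors.
-/

namespace Vale.Agent.P224

open MeasureTheory WithLp
open scoped ENNReal

variable {m : ℕ}

/-- The point with the given coordinates. -/
noncomputable def join (p : E m) (t r : ℝ) : E (m + 2) :=
  WithLp.toLp 2 (Fin.append (fun i => p i) ![t, r])

@[simp] theorem pPart_join (p : E m) (t r : ℝ) : pPart (join p t r) = p := by
  ext i
  simp [pPart, join]

@[simp] theorem tPart_join (p : E m) (t r : ℝ) : tPart (join p t r) = t := by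
  simp [tPart, join]

@[simp] theorem rPart_join (p : E m) (t r : ℝ) : rPart (join p t r) = r := by
  simp [rPart, join]

theorem measurePreserving_join :
    MeasurePreserving (fun x : E m × (ℝ × ℝ) => join x.1 x.2.1 x.2.2) := by
  have h1 : MeasurePreserving (fun x : E m × (ℝ × ℝ) =>
      (WithLp.ofLp x.1, (MeasurableEquiv.piFinTwo fun _ : Fin 2 => ℝ).symm x.2)) :=
    (PiLp.volume_preserving_ofLp (Fin m)).prod ((volume_preserving_piFinTwo fun _ : Fin 2 => ℝ).symm)
  have h2 := (volume_measurePreserving_sumPiEquivProdPi fun _ : Fin m ⊕ Fin 2 => ℝ).symm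
  have h3 := volume_measurePreserving_piCongrLeft (fun _ : Fin (m + 2) => ℝ)
    (finSumFinEquiv (m := m) (n := 2))
  have h := (PiLp.volume_preserving_toLp (Fin (m + 2))).comp (h3.comp (h2.comp h1))
  convert h using 1
  funext x
  simp only [join, Function.comp_apply]
  congr 1
  funext i
  refine Fin.addCases (fun j => ?_) (fun j => ?_) i
  · rw [show Fin.castAdd 2 j = finSumFinEquiv (Sum.inl j) from rfl]
    erw [Equiv.piCongrLeft_apply_apply]
    simp
    rfl
  · rw [show Fin.natAdd m j = finSumFinEquiv (Sum.inr j) from rfl]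
    erw [Equiv.piCongrLeft_apply_apply]
    fin_cases j <;> simp <;> rfl

theorem lintegral_split {G : E (m + 2) → ℝ≥0∞} (hG : Measurable G) :
    ∫⁻ z, G z = ∫⁻ p : E m, ∫⁻ t : ℝ, ∫⁻ r : ℝ, G (join p t r) := by
  rw [← measurePreserving_join.lintegral_comp hG]
  have hm : Measurable fun x : E m × (ℝ × ℝ) => G (join x.1 x.2.1 x.2.2) :=
    hG.comp measurePreserving_join.measurable
  rw [Measure.volume_eq_prod, lintegral_prod _ hm.aemeasurable]
  refine lintegral_congr fun p => ?_
  rw [Measure.volume_eq_prod]
  exact lintegral_prod (fun y : ℝ × ℝ => G (join p y.1 y.2)) (hm.comp measurable_prodMk_left).aemeasurable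

end Vale.Agent.P224
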