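import Vale.Agent.P224.MaxPoint
import Vale.Agent.P224.Split
import Vale.Agent.P224.Scalar
import Vale.Agent.P224.Jac

/-!
P224: the normal circles cover the ball, which bounds the volume from below.
-/

namespace Vale.Agent.P224

open MeasureTheory Set Filter
open scoped RealInnerProductSpace Topology ContDiff Matrix ENNReal Manifold

variable {m : ℕ} {U : Set (E m)} {f ν : E m → E (m + 2)}

theorem continuous_pPart : Continuous (pPart (m := m)) := by
  unfold pPart; fun_prop

theorem continuous_tPart : Continuous (tPart (m := m)) := by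
  unfold tPart; fun_prop

theorem continuous_rPart : Continuous (rPart (m := m)) := by
  unfold rPart; fun_prop

theorem isClosed_posSemidef {n : Type*} [Fintype n] :
    IsClosed {Q : Matrix n n ℝ | Q.PosSemidef} := by
  have : {Q : Matrix n n ℝ | Q.PosSemidef} =
      {Q : Matrix n n ℝ | Qᴴ = Q} ∩ ⋂ x : n → ℝ, {Q : Matrix n n ℝ | 0 ≤ x ⬝ᵥ (Q *ᵥ x)} := by
    ext Q
    simp [Matrix.posSemidef_iff_dotProduct_mulVec, Matrix.IsHermitian]
  rw [this]
  exact (isClosed_eq (by fun_prop) (by fun_prop)).inter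
    (isClosed_iInter fun x => isClosed_le (by fun_prop) (by fun_prop))

theorem differentiableAt_sweep (hU : IsOpen U) (hf : ContDiffOn ℝ ∞ f U) (hν : ContDiffOn ℝ ∞ ν U)
    {z : E (m + 2)} (hz : pPart z ∈ U) : DifferentiableAt ℝ (sweep f ν) z := by
  have hp : DifferentiableAt ℝ (pPart (m := m)) z := by unfold pPart; fun_prop
  have h1 : DifferentiableAt ℝ (fun y => f (pPart y)) z :=
    DifferentiableAt.comp z (diffAt hU hf hz) hp
  have h2 : DifferentiableAt ℝ (fun y => ν (pPart y)) z :=
    DifferentiableAt.comp z (diffAt hU hν hz) hp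
  have h3 : DifferentiableAt ℝ (tPart (m := m)) z :=
    (EuclideanSpace.proj (𝕜 := ℝ) (Fin.natAdd m (0 : Fin 2))).differentiableAt
  have h4 : DifferentiableAt ℝ (rPart (m := m)) z :=
    (EuclideanSpace.proj (𝕜 := ℝ) (Fin.natAdd m (1 : Fin 2))).differentiableAt
  exact h4.smul ((h3.cos.smul h1).add (h3.sin.smul h2))

/-- The points of the domain that are needed. -/
def sweepDomain (f ν : E m → E (m + 2)) (A : Set (E m)) : Set (E (m + 2)) :=
  {z | pPart z ∈ A ∧ tPart z ∈ Icc (-(Real.pi / 2)) (Real.pi / 2) ∧ rPart z ∈ Ioc (0 : ℝ) 1 ∧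
    focal f ν (pPart z) (tPart z)}

theorem measurableSet_sweepDomain (hU : IsOpen U) (hf : ContDiffOn ℝ ∞ f U)
    (hν : ContDiffOn ℝ ∞ ν U) {A : Set (E m)} (hA : MeasurableSet A) (hAU : A ⊆ U) :
    MeasurableSet (sweepDomain f ν A) := by
  set Mz : E (m + 2) → Matrix (Fin m) (Fin m) ℝ := fun z => Real.cos (tPart z) • metric f (pPart z) -
    Real.sin (tPart z) • secondForm f (pPart z) (ν (pPart z))
  have hc : ContinuousOn Mz (pPart ⁻¹' U) := by
    refine continuousOn_pi.2 fun i => continuousOn_pi.2 fun j => ?_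
    have c1 : ContinuousOn (fun p => metric f p i j) U :=
      (D_smooth hU hf i).continuousOn.inner (D_smooth hU hf j).continuousOn
    have c2 : ContinuousOn (fun p => secondForm f p (ν p) i j) U :=
      (D_smooth hU (D_smooth hU hf i) j).continuousOn.inner hν.continuousOn
    exact ((Real.continuous_cos.comp continuous_tPart).continuousOn.mul
        (c1.comp continuous_pPart.continuousOn fun z hz => hz)).sub
      ((Real.continuous_sin.comp continuous_tPart).continuousOn.mul
        (c2.comp continuous_pPart.continuousOn fun z hz => hz))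
  obtain ⟨u, hu, hue⟩ := continuousOn_iff_isClosed.1 hc _ isClosed_posSemidef
  have : sweepDomain f ν A = pPart ⁻¹' A ∩ tPart ⁻¹' Icc (-(Real.pi / 2)) (Real.pi / 2) ∩
      rPart ⁻¹' Ioc (0 : ℝ) 1 ∩ (u ∩ pPart ⁻¹' U) := by
    rw [← hue]
    ext z
    simp only [sweepDomain, mem_setOf_eq, mem_inter_iff, mem_preimage, focal, Mz]
    constructor
    · rintro ⟨h1, h2, h3, h4⟩
      exact ⟨⟨⟨h1, h2⟩, h3⟩, h4, hAU h1⟩
    · rintro ⟨⟨⟨h1, h2⟩, h3⟩, h4, -⟩
      exact ⟨h1, h2, h3, h4⟩
  rw [this]
  exact (((continuous_pPart.measurable hA).inter (continuous_tPart.measurable measurableSet_Icc)).inter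
    (continuous_rPart.measurable measurableSet_Ioc)).inter
    (hu.measurableSet.inter (continuous_pPart.measurable hU.measurableSet))

theorem lintegral_rad (n : ℕ) :
    ∫⁻ r : ℝ, (Ioc (0 : ℝ) 1).indicator (fun r => ENNReal.ofReal (r ^ n)) r =
      ENNReal.ofReal (1 / ((n : ℝ) + 1)) := by
  rw [lintegral_indicator measurableSet_Ioc, ← ofReal_integral_eq_lintegral_ofReal
    (((continuous_pow n).integrableOn_Icc).mono_set Ioc_subset_Icc_self)
    ((ae_restrict_iff' measurableSet_Ioc).2 (ae_of_all _ fun r hr => pow_nonneg hr.1.le n)),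
    ← intervalIntegral.integral_of_le zero_le_one, integral_pow]
  simp

theorem lintegral_phi (k : Fin m → ℝ) :
    ∫⁻ t : ℝ, (Icc (-(Real.pi / 2)) (Real.pi / 2)).indicator (fun t => ENNReal.ofReal (phi k t)) t =
      ENNReal.ofReal (J k) := by
  rw [lintegral_indicator measurableSet_Icc, ← ofReal_integral_eq_lintegral_ofReal
    ((continuous_phi_right k).integrableOn_Icc) (ae_of_all _ fun t => phi_nonneg k t),
    integral_Icc_eq_integral_Ioc, ← intervalIntegral.integral_of_le (by linarith [Real.pi_pos])]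
  rfl

/-- The part of the ball swept from one piece of a chart. -/
theorem volume_sweep_le (hm : 0 < m) (hU : IsOpen U) (hf : ContDiffOn ℝ ∞ f U)
    (hν : ContDiffOn ℝ ∞ ν U) (hs : ∀ p ∈ U, ‖f p‖ = 1) (hg : ∀ p ∈ U, (metric f p).det ≠ 0)
    (hn : ∀ p ∈ U, IsUnitNormal f p (ν p)) (hH : ∀ p ∈ U, meanCurv f p (ν p) = 0)
    (hpinch : ∀ p ∈ U, (m : ℝ) ≤ normSq f p (ν p)) {K : ℝ}
    (hK : ∀ k : Fin m → ℝ, ∑ i, k i = 0 → (m : ℝ) ≤ ∑ i, k i ^ 2 → J k ≤ K)
    {A : Set (E m)} (hA : MeasurableSet A) (hAU : A ⊆ U) :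
    volume (sweep f ν '' sweepDomain f ν A) ≤
      ENNReal.ofReal (K / ((m : ℝ) + 2)) * ∫⁻ p in A, ENNReal.ofReal (volDensity f p) := by
  have hS := measurableSet_sweepDomain hU hf hν hA hAU
  refine (addHaar_image_le_lintegral_abs_det_fderiv volume hS (f' := fderiv ℝ (sweep f ν))
    fun z hz => (differentiableAt_sweep hU hf hν (hAU hz.1)).hasFDerivAt.hasFDerivWithinAt).trans ?_
  set G := (sweepDomain f ν A).indicator fun z => ENNReal.ofReal |(fderiv ℝ (sweep f ν) z).det|
  have hGm : Measurable G :=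
    (ENNReal.measurable_ofReal.comp ((continuous_abs.comp ContinuousLinearMap.continuous_det).measurable.comp
      (measurable_fderiv ℝ (sweep f ν)))).indicator hS
  rw [← lintegral_indicator hS, lintegral_split hGm]
  rw [← lintegral_indicator hA, ← lintegral_const_mul' _ _ ENNReal.ofReal_ne_top]
  refine lintegral_mono fun p => ?_
  by_cases hp : p ∈ A
  swap
  · refine le_trans (le_of_eq ?_) (zero_le')
    have : ∀ t r, G (join p t r) = 0 := fun t r =>
      indicator_of_notMem (fun h => hp (by simpa using h.1)) _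
    simp [this]
  rw [indicator_of_mem hp]
  obtain ⟨k, hk1, hk2, hk3⟩ := exists_curvatures hU hf hν hs hg hn (hAU hp)
  have hd : 0 ≤ volDensity f p := Real.sqrt_nonneg _
  set I := Icc (-(Real.pi / 2)) (Real.pi / 2)
  have hb : ∀ t r, G (join p t r) ≤ ENNReal.ofReal (volDensity f p) *
      I.indicator (fun t => ENNReal.ofReal (phi k t)) t *
      (Ioc (0 : ℝ) 1).indicator (fun r => ENNReal.ofReal (r ^ (m + 1))) r := by
    intro t r
    by_cases hz : join p t r ∈ sweepDomain f ν A
    swap
    · simp [G, indicator_of_notMem hz]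
    simp only [G, indicator_of_mem hz]
    obtain ⟨-, ht, hr, hfoc⟩ := hz
    have hle := hk3 (join p t r) (pPart_join p t r) (le_of_lt hr.1) (by simpa using hfoc)
    simp only [tPart_join, rPart_join] at ht hr hle
    rw [indicator_of_mem ht, indicator_of_mem hr, ← ENNReal.ofReal_mul hd,
      ← ENNReal.ofReal_mul (mul_nonneg hd (phi_nonneg k t))]
    refine ENNReal.ofReal_le_ofReal (le_of_eq ?_)
    rw [hle, phi]
    simp only [fac]
    ring
  refine (lintegral_mono fun t => lintegral_mono fun r => hb t r).trans ?_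
  calc ∫⁻ t, ∫⁻ r, ENNReal.ofReal (volDensity f p) *
        I.indicator (fun t => ENNReal.ofReal (phi k t)) t *
        (Ioc (0 : ℝ) 1).indicator (fun r => ENNReal.ofReal (r ^ (m + 1))) r
      = ∫⁻ t, ENNReal.ofReal (volDensity f p) * ENNReal.ofReal (1 / ((m : ℝ) + 2)) *
          I.indicator (fun t => ENNReal.ofReal (phi k t)) t := by
        refine lintegral_congr fun t => ?_
        rw [lintegral_const_mul _ ((by fun_prop : Measurable fun r : ℝ =>
          ENNReal.ofReal (r ^ (m + 1))).indicator measurableSet_Ioc), lintegral_rad]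
        push_cast
        rw [show (m : ℝ) + 1 + 1 = m + 2 by ring]
        ring
    _ = ENNReal.ofReal (volDensity f p) * ENNReal.ofReal (1 / ((m : ℝ) + 2)) *
          ENNReal.ofReal (J k) := by
        rw [lintegral_const_mul' _ _ (ENNReal.mul_ne_top ENNReal.ofReal_ne_top ENNReal.ofReal_ne_top),
          lintegral_phi]
    _ ≤ ENNReal.ofReal (K / ((m : ℝ) + 2)) * ENNReal.ofReal (volDensity f p) := by
        rw [mul_assoc, mul_comm]
        refine mul_le_mul' ?_ le_rfl
        rw [← ENNReal.ofReal_mul (by positivity)]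
        refine ENNReal.ofReal_le_ofReal ?_
        rw [div_mul_eq_mul_div, one_mul]
        refine div_le_div_of_nonneg_right (hK k ?_ ?_) (by positivity)
        · rw [hk1, hH p (hAU hp)]
        · rw [hk2]; exact hpinch p (hAU hp)

variable {M : Type*} [TopologicalSpace M] [ChartedSpace (E m) M] [IsManifold (𝓡 m) ∞ M]
  {F : M → E (m + 2)}

theorem contDiffOn_rep (hF : IsMinimalImmersion F) (x : M) :
    ContDiffOn ℝ ∞ (rep F x) (chartAt (E m) x).target :=
  contMDiffOn_iff_contDiffOn.1
    (hF.smooth.comp_contMDiffOn (contMDiffOn_chart_symm (I := 𝓡 m) (n := ∞) (x := x)))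

theorem sphereArea_succ (m : ℕ) :
    volume (Metric.closedBall (0 : E (m + 2)) 1) = ENNReal.ofReal (sphereArea (m + 1) / ((m : ℝ) + 2)) := by
  rw [EuclideanSpace.volume_closedBall, Fintype.card_fin]
  simp only [ENNReal.ofReal_one, one_pow, one_mul]
  congr 1
  have e : Real.sqrt Real.pi ^ (m + 2) = Real.pi ^ (((m : ℝ) + 1 + 1) / 2) := by
    rw [Real.sqrt_eq_rpow, ← Real.rpow_mul_natCast Real.pi_pos.le]
    congr 1; push_cast; ring
  have hG : Real.Gamma (((m + 2 : ℕ) : ℝ) / 2 + 1) =
      (((m : ℝ) + 2) / 2) * Real.Gamma (((m : ℝ) + 1 + 1) / 2) := by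
    push_cast
    rw [Real.Gamma_add_one (by positivity)]
    ring_nf
  have hpos : 0 < Real.Gamma (((m : ℝ) + 1 + 1) / 2) := Real.Gamma_pos_of_pos (by positivity)
  rw [e, hG]
  unfold sphereArea
  push_cast
  field_simp

/-- Pinched minimal hypersurfaces have at least the least Clifford volume. -/
theorem clifford_le_vol (hm : 2 ≤ m) [CompactSpace M] [Nonempty M] (hF : IsMinimalImmersion F)
    (hpinch : ∀ x, ∀ p ∈ (chartAt (E m) x).target, ∀ ν, IsUnitNormal (rep F x) p ν →
      (m : ℝ) ≤ normSq (rep F x) p ν) :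
    ∃ k : ℕ, 1 ≤ k ∧ k < m ∧ ENNReal.ofReal (cliffordVolume m k) ≤ vol F := by
  obtain ⟨j, hj1, hjm, hJ⟩ := J_le hm
  refine ⟨j, hj1, hjm, ?_⟩
  have hC := cliffordVolume_pos hj1 hjm
  set K := sphereArea (m + 1) / cliffordVolume m j with hKdef
  have hK0 : 0 < K / ((m : ℝ) + 2) := by
    have := sphereArea_pos (m + 1)
    positivity
  simp only [vol, le_iInf_iff]
  intro n c A hA hcov
  have hnorm : ∀ i, ∃ ν : E m → E (m + 2), ContDiffOn ℝ ∞ ν (chartAt (E m) (c i)).target ∧
      ∀ p ∈ (chartAt (E m) (c i)).target, IsUnitNormal (rep F (c i)) p (ν p) := fun i =>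
    exists_normal (chartAt (E m) (c i)).open_target (contDiffOn_rep hF _) (fun p _ => hF.sphere _)
      (hF.immersion _)
  choose ν hν hn using hnorm
  set S := fun i => sweepDomain (rep F (c i)) (ν i) (A i) with hS
  have hsub : Metric.closedBall (0 : E (m + 2)) 1 \ {0} ⊆
      ⋃ i, sweep (rep F (c i)) (ν i) '' S i := by
    rintro q ⟨hq1, hq0⟩
    have hcont : Continuous fun x => ⟪F x, q⟫ := hF.smooth.continuous.inner continuous_const
    obtain ⟨x, -, hx⟩ := isCompact_univ.exists_isMaxOn univ_nonempty hcont.continuousOn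
    obtain ⟨i, p, hp, rfl⟩ := hcov x
    have hpt := (hA i).2 hp
    have hmax : IsLocalMax (fun y => ⟪rep F (c i) y, q⟫) p :=
      Filter.Eventually.of_forall fun y => hx (mem_univ _)
    obtain ⟨t, ht, hfoc, hqe⟩ := exists_angle (chartAt (E m) (c i)).open_target (contDiffOn_rep hF _)
      (fun p _ => hF.sphere _) (hF.immersion _) (hn i) (fun p hp => hF.minimal _ p hp _ (hn i p hp))
      (by omega) hpt hq0 hmax
    refine mem_iUnion.2 ⟨i, join p t ‖q‖, ⟨by simpa using hp, by simpa using ht, ?_, by simpa using hfoc⟩, ?_⟩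
    · simp only [rPart_join, mem_Ioc]
      exact ⟨norm_pos_iff.2 hq0, mem_closedBall_zero_iff.1 hq1⟩
    · simp only [sweep, rPart_join, tPart_join, pPart_join]
      exact hqe.symm
  have h1 : ENNReal.ofReal (sphereArea (m + 1) / ((m : ℝ) + 2)) ≤
      ENNReal.ofReal (K / ((m : ℝ) + 2)) *
        ∑ i, ∫⁻ p in A i, ENNReal.ofReal (volDensity (rep F (c i)) p) := by
    rw [← sphereArea_succ, ← measure_sdiff_null (measure_singleton (0 : E (m + 2))), Finset.mul_sum]
    refine (measure_mono hsub).trans ((measure_iUnion_fintype_le _ _).trans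
      (Finset.sum_le_sum fun i _ => ?_))
    exact volume_sweep_le (by omega) (chartAt (E m) (c i)).open_target (contDiffOn_rep hF _) (hν i)
      (fun p _ => hF.sphere _) (hF.immersion _) (hn i) (fun p hp => hF.minimal _ p hp _ (hn i p hp))
      (fun p hp => hpinch _ p hp _ (hn i p hp)) hJ (hA i).1 (hA i).2
  have e : sphereArea (m + 1) / ((m : ℝ) + 2) = K / ((m : ℝ) + 2) * cliffordVolume m j := by
    rw [hKdef]; field_simp
  rw [e, ENNReal.ofReal_mul hK0.le] at h1
  exact (ENNReal.mul_le_mul_iff_right (by simpa using hK0) ENNReal.ofReal_ne_top).1 h1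

end Vale.Agent.P224
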