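import Mathlib
import Vale.Agent.P224.Consts

/-!
P224: minimal immersions into the round sphere in coordinates, their volume, and the sweep map.
-/

namespace Vale.Agent.P224

open MeasureTheory
open scoped RealInnerProductSpace Topology ENNReal Manifold ContDiff Matrix

variable {m : ℕ}

/-- Euclidean `n`-space. -/
abbrev E (n : ℕ) := EuclideanSpace ℝ (Fin n)

/-- The partial derivative in the `i`-th coordinate. -/
noncomputable def D {W : Type*} [NormedAddCommGroup W] [NormedSpace ℝ W] (f : E m → W) (i : Fin m) :
    E m → W := fun p => fderiv ℝ f p (EuclideanSpace.single i 1)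

/-- The induced metric. -/
noncomputable def metric (f : E m → E (m + 2)) (p : E m) : Matrix (Fin m) (Fin m) ℝ :=
  Matrix.of fun i j => ⟪D f i p, D f j p⟫

/-- The volume density of the induced metric. -/
noncomputable def volDensity (f : E m → E (m + 2)) (p : E m) : ℝ := √(metric f p).det

/-- `ν` is a unit normal, within the sphere, of the hypersurface `f` at `p`. -/
def IsUnitNormal (f : E m → E (m + 2)) (p : E m) (ν : E (m + 2)) : Prop :=
  ‖ν‖ = 1 ∧ ⟪f p, ν⟫ = 0 ∧ ∀ i, ⟪D f i p, ν⟫ = 0

/-- The second fundamental form with respect to the normal `ν`. -/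
noncomputable def secondForm (f : E m → E (m + 2)) (p : E m) (ν : E (m + 2)) :
    Matrix (Fin m) (Fin m) ℝ :=
  Matrix.of fun i j => ⟪D (D f i) j p, ν⟫

/-- The shape operator with respect to the normal `ν`. -/
noncomputable def shapeOp (f : E m → E (m + 2)) (p : E m) (ν : E (m + 2)) :
    Matrix (Fin m) (Fin m) ℝ :=
  (metric f p)⁻¹ * secondForm f p ν

/-- The mean curvature, not divided by `m`. -/
noncomputable def meanCurv (f : E m → E (m + 2)) (p : E m) (ν : E (m + 2)) : ℝ :=
  (shapeOp f p ν).trace

/-- The squared length `|A|²` of the second fundamental form. -/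
noncomputable def normSq (f : E m → E (m + 2)) (p : E m) (ν : E (m + 2)) : ℝ :=
  (shapeOp f p ν * shapeOp f p ν).trace

variable {M : Type*} [TopologicalSpace M] [ChartedSpace (E m) M]

/-- The expression of `F` in the preferred chart at `x`. -/
noncomputable def rep (F : M → E (m + 2)) (x : M) : E m → E (m + 2) := F ∘ (chartAt (E m) x).symm

/-- A smooth minimal immersion into the unit sphere. -/
structure IsMinimalImmersion (F : M → E (m + 2)) : Prop where
  smooth : ContMDiff (𝓡 m) (𝓡 (m + 2)) ∞ F
  sphere : ∀ x, ‖F x‖ = 1
  immersion : ∀ x, ∀ p ∈ (chartAt (E m) x).target, (metric (rep F x) p).det ≠ 0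
  minimal : ∀ x, ∀ p ∈ (chartAt (E m) x).target, ∀ ν, IsUnitNormal (rep F x) p ν →
    meanCurv (rep F x) p ν = 0

/-- The volume of the immersion, measured on the domain: the least total of `∫ √det g` over finite
covers of the domain by measurable pieces of charts. A partition of the domain gives the Riemannian volume as
the total, and overlaps can only increase it. -/
noncomputable def vol (F : M → E (m + 2)) : ℝ≥0∞ :=
  ⨅ (n : ℕ) (c : Fin n → M) (A : Fin n → Set (E m))
    (_ : ∀ i, MeasurableSet (A i) ∧ A i ⊆ (chartAt (E m) (c i)).target)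
    (_ : ∀ x : M, ∃ i, x ∈ (chartAt (E m) (c i)).symm '' A i),
    ∑ i, ∫⁻ p in A i, ENNReal.ofReal (volDensity (rep F (c i)) p)

/-- The first `m` coordinates. -/
noncomputable def pPart (z : E (m + 2)) : E m :=
  (EuclideanSpace.equiv (Fin m) ℝ).symm fun i => z (Fin.castAdd 2 i)

/-- The angle coordinate. -/
def tPart (z : E (m + 2)) : ℝ := z (Fin.natAdd m 0)

/-- The radial coordinate. -/
def rPart (z : E (m + 2)) : ℝ := z (Fin.natAdd m 1)

/-- The great circles normal to the hypersurface, and their radial segments. -/
noncomputable def sweep (f ν : E m → E (m + 2)) (z : E (m + 2)) : E (m + 2) :=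
  rPart z • (Real.cos (tPart z) • f (pPart z) + Real.sin (tPart z) • ν (pPart z))

/-- The part of the normal circle before the focal points. -/
def focal (f ν : E m → E (m + 2)) (p : E m) (t : ℝ) : Prop :=
  (Real.cos t • metric f p - Real.sin t • secondForm f p (ν p)).PosSemidef

end Vale.Agent.P224
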