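import Vale.Agent.P224.Defs

/-!
P224: the smooth unit normal, and the normal circle through a maximiser of a height function.
-/

namespace Vale.Agent.P224

open Set
open scoped RealInnerProductSpace Topology ContDiff Matrix

variable {m : ℕ} {U : Set (E m)} {f : E m → E (m + 2)}

theorem D_smooth {W : Type*} [NormedAddCommGroup W] [NormedSpace ℝ W] {g : E m → W} (hU : IsOpen U)
    (hg : ContDiffOn ℝ ∞ g U) (i : Fin m) : ContDiffOn ℝ ∞ (D g i) U :=
  (hg.fderiv_of_isOpen hU (m := ∞) (by simp)).clm_apply contDiffOn_const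

theorem diffAt {W : Type*} [NormedAddCommGroup W] [NormedSpace ℝ W] {g : E m → W} (hU : IsOpen U)
    (hg : ContDiffOn ℝ ∞ g U) {p : E m} (hp : p ∈ U) : DifferentiableAt ℝ g p :=
  (hg.contDiffAt (hU.mem_nhds hp)).differentiableAt (by simp)

theorem inner_D_self (hU : IsOpen U) (hf : ContDiffOn ℝ ∞ f U) (hs : ∀ p ∈ U, ‖f p‖ = 1)
    {p : E m} (hp : p ∈ U) (i : Fin m) : ⟪f p, D f i p⟫ = 0 := by
  have hd := diffAt hU hf hp
  have h : (fun y => ⟪f y, f y⟫) =ᶠ[𝓝 p] fun _ => (1 : ℝ) := by
    filter_upwards [hU.mem_nhds hp] with y hy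
    rw [real_inner_self_eq_norm_sq, hs y hy]
    norm_num
  have h0 : fderiv ℝ (fun y => ⟪f y, f y⟫) p (EuclideanSpace.single i 1) = 0 := by
    rw [h.fderiv_eq]; simp
  rw [fderiv_inner_apply ℝ hd hd, real_inner_comm (f p) (fderiv ℝ f p _)] at h0
  show ⟪f p, fderiv ℝ f p _⟫ = 0
  linarith

theorem inner_DD_self (hU : IsOpen U) (hf : ContDiffOn ℝ ∞ f U) (hs : ∀ p ∈ U, ‖f p‖ = 1)
    {p : E m} (hp : p ∈ U) (i j : Fin m) : ⟪f p, D (D f i) j p⟫ = -metric f p i j := by
  have hd := diffAt hU hf hp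
  have hd' := diffAt hU (D_smooth hU hf i) hp
  have h : (fun y => ⟪f y, D f i y⟫) =ᶠ[𝓝 p] fun _ => (0 : ℝ) := by
    filter_upwards [hU.mem_nhds hp] with y hy using inner_D_self hU hf hs hy i
  have h0 : fderiv ℝ (fun y => ⟪f y, D f i y⟫) p (EuclideanSpace.single j 1) = 0 := by
    simp [h.fderiv_eq]
  rw [fderiv_inner_apply ℝ hd hd'] at h0
  show ⟪f p, fderiv ℝ (D f i) p _⟫ = -⟪D f i p, D f j p⟫
  rw [real_inner_comm (D f j p)]
  exact eq_neg_of_add_eq_zero_left h0

theorem sum_metric (p : E m) (a : Fin m → ℝ) :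
    a ⬝ᵥ (metric f p *ᵥ a) = ‖∑ i, a i • D f i p‖ ^ 2 := by
  rw [← real_inner_self_eq_norm_sq]
  simp only [dotProduct, Matrix.mulVec, metric, Matrix.of_apply, sum_inner, inner_sum,
    real_inner_smul_left, real_inner_smul_right, Finset.mul_sum]
  exact Finset.sum_congr rfl fun i _ => Finset.sum_congr rfl fun j _ => by
    rw [real_inner_comm (D f j p) (D f i p)]; ring

/-- The position and the coordinate vectors are independent. -/
theorem linearIndependent_frame (hU : IsOpen U) (hf : ContDiffOn ℝ ∞ f U)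
    (hs : ∀ p ∈ U, ‖f p‖ = 1) {p : E m} (hp : p ∈ U) (hg : (metric f p).det ≠ 0) :
    LinearIndependent ℝ (Fin.cons (f p) (fun i => D f i p) : Fin (m + 1) → E (m + 2)) := by
  rw [Fintype.linearIndependent_iff]
  intro a ha
  rw [Fin.sum_univ_succ] at ha
  simp only [Fin.cons_zero, Fin.cons_succ] at ha
  have h0 : a 0 = 0 := by
    have := congrArg (fun x => ⟪f p, x⟫) ha
    simpa [inner_add_right, inner_sum, real_inner_smul_right, inner_D_self hU hf hs hp,
      real_inner_self_eq_norm_sq, hs p hp] using this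
  rw [h0, zero_smul, zero_add] at ha
  have h1 : metric f p *ᵥ (fun i => a i.succ) = 0 := by
    ext j
    have := congrArg (fun x => ⟪D f j p, x⟫) ha
    simp only [inner_sum, real_inner_smul_right, inner_zero_right] at this
    simpa [Matrix.mulVec, dotProduct, metric, mul_comm] using this
  have h2 := Matrix.eq_zero_of_mulVec_eq_zero hg h1
  exact fun i => Fin.cases h0 (fun i => congrFun h2 i) i

/-- The rows of the cross product. -/
noncomputable def crossRows (f : E m → E (m + 2)) (p : E m) (x : E (m + 2)) :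
    Fin (m + 2) → Fin (m + 2) → ℝ :=
  Fin.cons (fun a => x a) (Fin.cons (fun a => f p a) (fun i a => D f i p a))

/-- The generalised cross product of the position and the coordinate vectors. -/
noncomputable def cross (f : E m → E (m + 2)) (p : E m) : E (m + 2) :=
  WithLp.toLp 2 fun a => Matrix.det (Matrix.of (crossRows f p (EuclideanSpace.single a 1)))

theorem inner_cross (p : E m) (x : E (m + 2)) :
    ⟪x, cross f p⟫ = Matrix.det (Matrix.of (crossRows f p x)) := by
  set v₀ := crossRows f p 0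
  have hx : ∀ y : E (m + 2), crossRows f p y = Function.update v₀ 0 (fun a => y a) := fun y => by
    simp only [v₀, crossRows, Fin.update_cons_zero]
  let L : (Fin (m + 2) → ℝ) →ₗ[ℝ] ℝ :=
    (Matrix.detRowAlternating (n := Fin (m + 2)) (R := ℝ)).toMultilinearMap.toLinearMap v₀ 0
  have hL : ∀ y : E (m + 2), Matrix.det (Matrix.of (crossRows f p y)) = L (fun a => y a) := fun y => by
    rw [hx y]
    rfl
  rw [hL, PiLp.inner_apply]
  have : (fun a => x a) = ∑ b, x b • (fun a => (EuclideanSpace.single b (1 : ℝ) : E (m + 2)) a) := by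
    ext a
    simp [Finset.sum_apply]
  rw [this, map_sum]
  refine Finset.sum_congr rfl fun b _ => ?_
  rw [map_smul, ← hL]
  simp [cross, mul_comm]

theorem inner_cross_frame (p : E m) :
    ⟪f p, cross f p⟫ = 0 ∧ ∀ i, ⟪D f i p, cross f p⟫ = 0 := by
  refine ⟨?_, fun i => ?_⟩ <;> rw [inner_cross]
  · refine Matrix.det_zero_of_row_eq (i := 0) (j := 1) (by simp) ?_
    rfl
  · refine Matrix.det_zero_of_row_eq (i := 0) (j := i.succ.succ) (Fin.succ_ne_zero _).symm ?_
    funext a
    simp [crossRows, Fin.cons_succ]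

theorem cross_ne_zero (hU : IsOpen U) (hf : ContDiffOn ℝ ∞ f U)
    (hs : ∀ p ∈ U, ‖f p‖ = 1) {p : E m} (hp : p ∈ U) (hg : (metric f p).det ≠ 0) :
    cross f p ≠ 0 := by
  have hli := linearIndependent_frame hU hf hs hp hg
  obtain ⟨x, hx⟩ : ∃ x : E (m + 2), x ∉ Submodule.span ℝ
      (Set.range (Fin.cons (f p) (fun i => D f i p) : Fin (m + 1) → E (m + 2))) := by
    by_contra! h
    have h1 := finrank_span_eq_card hli
    rw [Submodule.eq_top_iff'.2 h, finrank_top, finrank_euclideanSpace_fin, Fintype.card_fin] at h1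
    omega
  have hli' : LinearIndependent ℝ
      (Fin.cons x (Fin.cons (f p) (fun i => D f i p)) : Fin (m + 2) → E (m + 2)) :=
    linearIndependent_finCons.2 ⟨hli, hx⟩
  have hrow : LinearIndependent ℝ (crossRows f p x) := by
    have := hli'.map' (WithLp.linearEquiv 2 ℝ (Fin (m + 2) → ℝ)).toLinearMap
      (LinearMap.ker_eq_bot.2 (WithLp.linearEquiv 2 ℝ (Fin (m + 2) → ℝ)).injective)
    convert this using 1
    refine funext (Fin.cases rfl fun i => ?_)
    refine Fin.cases rfl (fun j => ?_) i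
    rfl
    all_goals rfl
  intro h
  have : Matrix.det (Matrix.of (crossRows f p x)) = 0 := by rw [← inner_cross, h, inner_zero_right]
  exact (Matrix.isUnit_iff_isUnit_det _).1 (Matrix.linearIndependent_rows_iff_isUnit.1 hrow)
    |>.ne_zero this

theorem contDiffOn_cross (hU : IsOpen U) (hf : ContDiffOn ℝ ∞ f U) :
    ContDiffOn ℝ ∞ (cross f) U := by
  rw [contDiffOn_euclidean]
  intro a
  simp only [cross, Matrix.det_apply', Matrix.of_apply]
  refine ContDiffOn.sum fun σ _ => contDiffOn_const.mul (contDiffOn_prod fun j _ => ?_)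
  induction' σ j using Fin.cases with i
  · exact contDiffOn_const
  induction' i using Fin.cases with i
  · simpa [crossRows] using contDiffOn_euclidean.1 hf j
  · simpa [crossRows] using contDiffOn_euclidean.1 (D_smooth hU hf i) j

/-- A smooth unit normal exists in every chart. -/
theorem exists_normal (hU : IsOpen U) (hf : ContDiffOn ℝ ∞ f U)
    (hs : ∀ p ∈ U, ‖f p‖ = 1) (hg : ∀ p ∈ U, (metric f p).det ≠ 0) :
    ∃ ν : E m → E (m + 2), ContDiffOn ℝ ∞ ν U ∧ ∀ p ∈ U, IsUnitNormal f p (ν p) := by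
  have hne := fun p hp => cross_ne_zero hU hf hs hp (hg p hp)
  refine ⟨fun p => ‖cross f p‖⁻¹ • cross f p, ?_, fun p hp => ⟨?_, ?_, fun i => ?_⟩⟩
  · exact (((contDiffOn_cross hU hf).norm ℝ hne).inv fun p hp => norm_ne_zero_iff.2 (hne p hp)).smul
      (contDiffOn_cross hU hf)
  · rw [norm_smul, norm_inv, norm_norm, inv_mul_cancel₀ (norm_ne_zero_iff.2 (hne p hp))]
  · rw [real_inner_smul_right, (inner_cross_frame p).1, mul_zero]
  · rw [real_inner_smul_right, (inner_cross_frame p).2 i, mul_zero]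

end Vale.Agent.P224
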