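import Vale.Agent.P224.Normal

/-!
P224: every point of the ball lies on a normal circle before its focal point.
-/

namespace Vale.Agent.P224

open Set
open scoped RealInnerProductSpace Topology ContDiff Matrix MatrixOrder

variable {m : ℕ} {U : Set (E m)} {f : E m → E (m + 2)}

theorem DD_eq (hU : IsOpen U) (hf : ContDiffOn ℝ ∞ f U) {p : E m} (hp : p ∈ U) (i j : Fin m) :
    D (D f i) j p =
      fderiv ℝ (fderiv ℝ f) p (EuclideanSpace.single j 1) (EuclideanSpace.single i 1) := by
  unfold D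
  rw [fderiv_clm_apply (diffAt hU (hf.fderiv_of_isOpen hU (m := ∞) (by simp)) hp)
    (differentiableAt_const _)]
  simp

theorem DD_comm (hU : IsOpen U) (hf : ContDiffOn ℝ ∞ f U) {p : E m} (hp : p ∈ U) (i j : Fin m) :
    D (D f i) j p = D (D f j) i p := by
  rw [DD_eq hU hf hp, DD_eq hU hf hp]
  exact ((hf.contDiffAt (hU.mem_nhds hp)).isSymmSndFDerivAt
    (by simp only [minSmoothness_of_isRCLikeNormedField]; exact WithTop.coe_le_coe.mpr le_top)).eq _ _

/-- A local maximum of a height function has nonpositive Hessian. -/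
theorem hessian_nonpos (hU : IsOpen U) (hf : ContDiffOn ℝ ∞ f U) {p : E m} (hp : p ∈ U)
    {q : E (m + 2)} (hmax : IsLocalMax (fun y => ⟪f y, q⟫) p) (a : Fin m → ℝ) :
    ∑ i, ∑ j, a i * (a j * ⟪D (D f i) j p, q⟫) ≤ 0 := by
  set v : E m := ∑ i, a i • EuclideanSpace.single i (1 : ℝ) with hv
  have hval : ∑ i, ∑ j, a i * (a j * ⟪D (D f i) j p, q⟫) = ⟪fderiv ℝ (fderiv ℝ f) p v v, q⟫ := by
    simp only [hv, map_sum, map_smul, FunLike.coe_sum, Finset.sum_apply,
      FunLike.coe_smul, Pi.smul_apply, sum_inner, real_inner_smul_left, DD_eq hU hf hp,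
      Finset.mul_sum]
    try rw [Finset.sum_comm]
    try exact Finset.sum_congr rfl fun i _ => Finset.sum_congr rfl fun j _ => by ring
  rw [hval]
  by_contra hpos
  push Not at hpos
  set l : ℝ → E m := fun s => p + s • v with hldef
  have hl : ∀ s, HasDerivAt l v s := fun s => by
    exact (((hasDerivAt_id s).smul_const v).const_add p).congr_deriv (one_smul _ _)
  have hl0 : l 0 = p := by simp [hldef]
  set φ : ℝ → ℝ := fun s => ⟪f (l s), q⟫ with hφ
  set ψ : ℝ → ℝ := fun s => ⟪fderiv ℝ f (l s) v, q⟫ with hψ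
  have hev : ∀ᶠ s in 𝓝 (0 : ℝ), l s ∈ U :=
    (hl 0).continuousAt.eventually_mem (hl0.symm ▸ hU.mem_nhds hp)
  have hd1 : ∀ᶠ s in 𝓝 (0 : ℝ), HasDerivAt φ (ψ s) s := hev.mono fun s hs => by
    simpa [hφ, hψ] using ((diffAt hU hf hs).hasFDerivAt.comp_hasDerivAt s (hl s)).inner ℝ
      (hasDerivAt_const s q)
  have hd2 : HasDerivAt ψ ⟪fderiv ℝ (fderiv ℝ f) p v v, q⟫ 0 := by
    have h2 : HasFDerivAt (fderiv ℝ f) (fderiv ℝ (fderiv ℝ f) p) (l 0) := by
      rw [hl0]
      exact (diffAt hU (hf.fderiv_of_isOpen hU (m := ∞) (by simp)) hp).hasFDerivAt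
    simpa [hψ, hl0] using ((h2.comp_hasDerivAt 0 (hl 0)).clm_apply (hasDerivAt_const 0 v)).inner ℝ
      (hasDerivAt_const 0 q)
  have hmax' : IsLocalMax φ 0 :=
    IsLocalMax.comp_continuous (f := fun y => ⟪f y, q⟫) (g := l) (hl0.symm ▸ hmax) (hl 0).continuousAt
  have hderiv : deriv φ =ᶠ[𝓝 0] ψ := hd1.mono fun s hs => hs.deriv
  have hdd : deriv (deriv φ) 0 = ⟪fderiv ℝ (fderiv ℝ f) p v v, q⟫ := by
    rw [hderiv.deriv_eq, hd2.deriv]
  have hmin : IsLocalMin φ 0 :=
    isLocalMin_of_deriv_deriv_pos (by rwa [hdd]) hmax'.deriv_eq_zero hd1.self_of_nhds.continuousAt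
  have hconst : φ =ᶠ[𝓝 0] fun _ => φ 0 := by
    filter_upwards [hmax', hmin] with s h1 h2 using le_antisymm h1 h2
  have hdc : deriv φ =ᶠ[𝓝 0] fun _ => (0 : ℝ) :=
    hconst.eventuallyEq_nhds.mono fun s hs => by rw [hs.deriv_eq]; simp
  rw [hdc.deriv_eq] at hdd
  simp at hdd
  linarith

theorem trace_inv_mul_nonneg {n : Type*} [Fintype n] [DecidableEq n] {g P : Matrix n n ℝ}
    (hg : g.PosDef) (hP : P.PosSemidef) : 0 ≤ (g⁻¹ * P).trace := by
  obtain ⟨B, rfl⟩ := CStarAlgebra.nonneg_iff_eq_star_mul_self.1 hP.nonneg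
  rw [← Matrix.mul_assoc, Matrix.trace_mul_comm, ← Matrix.mul_assoc]
  exact (hg.inv.posSemidef.mul_mul_conjTranspose_same B).trace_nonneg

theorem metric_posDef {p : E m} (hg : (metric f p).det ≠ 0) : (metric f p).PosDef := by
  have hgram : metric f p = Matrix.gram ℝ (fun i => D f i p) := rfl
  exact (hgram ▸ Matrix.posSemidef_gram ℝ (fun i => D f i p) : (metric f p).PosSemidef).posDef_iff_det_ne_zero.2 hg

/-- A local maximiser puts the point on its normal circle, before the focal point. -/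
theorem exists_angle (hU : IsOpen U) (hf : ContDiffOn ℝ ∞ f U) (hs : ∀ p ∈ U, ‖f p‖ = 1)
    (hg : ∀ p ∈ U, (metric f p).det ≠ 0) {ν : E m → E (m + 2)}
    (hn : ∀ p ∈ U, IsUnitNormal f p (ν p)) (hH : ∀ p ∈ U, meanCurv f p (ν p) = 0) (hm : 0 < m)
    {p : E m} (hp : p ∈ U) {q : E (m + 2)} (hq : q ≠ 0)
    (hmax : IsLocalMax (fun y => ⟪f y, q⟫) p) :
    ∃ t ∈ Icc (-(Real.pi / 2)) (Real.pi / 2), focal f ν p t ∧
      q = ‖q‖ • (Real.cos t • f p + Real.sin t • ν p) := by
  obtain ⟨hν1, hν2, hν3⟩ := hn p hp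
  have hgp := metric_posDef (hg p hp)
  set a := ⟪f p, q⟫ with ha
  set b := ⟪ν p, q⟫ with hb
  have hcrit : ∀ i, ⟪D f i p, q⟫ = 0 := fun i => by
    have h := hmax.fderiv_eq_zero
    have h2 := congrArg (fun L => L (EuclideanSpace.single i (1 : ℝ))) h
    rw [show (fderiv ℝ (fun y => ⟪f y, q⟫) p) (EuclideanSpace.single i 1) = ⟪D f i p, q⟫ by
      rw [fderiv_inner_apply ℝ (diffAt hU hf hp) (differentiableAt_const q)]
      simp [D]] at h2
    simpa using h2
  have hfν : ⟪f p, f p⟫ = 1 ∧ ⟪ν p, ν p⟫ = 1 := by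
    simp [real_inner_self_eq_norm_sq, hs p hp, hν1]
  -- the whole space is spanned by the frame
  have hli : LinearIndependent ℝ
      (Fin.cons (ν p) (Fin.cons (f p) (fun i => D f i p)) : Fin (m + 2) → E (m + 2)) := by
    refine linearIndependent_finCons.2 ⟨linearIndependent_frame hU hf hs hp (hg p hp), fun h => ?_⟩
    have : ⟪ν p, ν p⟫ = 0 := by
      refine Submodule.span_induction (p := fun x _ => ⟪x, ν p⟫ = 0) ?_ (inner_zero_left _)
        (fun x y _ _ hx hy => by rw [inner_add_left, hx, hy, add_zero])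
        (fun c x _ hx => by rw [real_inner_smul_left, hx, mul_zero]) h
      rintro x ⟨i, rfl⟩
      exact Fin.cases hν2 hν3 i
    linarith [hfν.2]
  set w := q - a • f p - b • ν p with hw
  have hw0 : w = 0 := by
    have htop := hli.span_eq_top_of_card_eq_finrank (by simp)
    have : ∀ x : E (m + 2), ⟪x, w⟫ = 0 := fun x => by
      refine Submodule.span_induction (p := fun x _ => ⟪x, w⟫ = 0) ?_ (inner_zero_left _)
        (fun x y _ _ hx hy => by rw [inner_add_left, hx, hy, add_zero])
        (fun c x _ hx => by rw [real_inner_smul_left, hx, mul_zero])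
        (htop ▸ Submodule.mem_top : x ∈ _)
      rintro _ ⟨i, rfl⟩
      induction' i using Fin.cases with i
      · simp [hw, inner_sub_right, real_inner_smul_right, real_inner_comm (f p) (ν p), hν2, hν1,
          real_inner_self_eq_norm_sq, hb]
      induction' i using Fin.cases with i
      · simp [hw, inner_sub_right, real_inner_smul_right, hν2, hs p hp, real_inner_self_eq_norm_sq, ha]
      · simp [hw, inner_sub_right, real_inner_smul_right, hν3, hcrit,
          real_inner_comm (f p), inner_D_self hU hf hs hp]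
    exact inner_self_eq_zero.1 (this w)
  have hq' : q = a • f p + b • ν p := by
    rw [hw, sub_sub] at hw0
    exact sub_eq_zero.1 hw0
  -- the Hessian
  set P := a • metric f p - b • secondForm f p (ν p) with hP
  have hPsym : P.IsHermitian := by
    refine Matrix.IsHermitian.ext fun i j => ?_
    simp only [hP, Matrix.sub_apply, Matrix.smul_apply, smul_eq_mul, metric, secondForm,
      Matrix.of_apply, star_trivial, DD_comm hU hf hp i j, real_inner_comm (D f i p) (D f j p)]
  have hPq : ∀ i j, ⟪D (D f i) j p, q⟫ = -P i j := fun i j => by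
    rw [hq', inner_add_right, real_inner_smul_right, real_inner_smul_right,
      real_inner_comm (f p), inner_DD_self hU hf hs hp]
    simp only [hP, Matrix.sub_apply, Matrix.smul_apply, smul_eq_mul, secondForm, Matrix.of_apply]
    ring
  have hPpsd : P.PosSemidef := by
    refine Matrix.PosSemidef.of_dotProduct_mulVec_nonneg hPsym fun x => ?_
    have := hessian_nonpos hU hf hp hmax x
    simp only [hPq, mul_neg, Finset.sum_neg_distrib, neg_nonpos] at this
    simpa [dotProduct, Matrix.mulVec, Finset.mul_sum, mul_comm, mul_assoc, mul_left_comm] using this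
  have ha0 : 0 ≤ a := by
    have h := trace_inv_mul_nonneg hgp hPpsd
    have e : ((metric f p)⁻¹ * P).trace = a * (m : ℝ) := by
      have hH' := hH p hp
      unfold meanCurv shapeOp at hH'
      rw [hP, Matrix.mul_sub, Matrix.mul_smul, Matrix.mul_smul,
        Matrix.nonsing_inv_mul _ (Ne.isUnit (hg p hp)), Matrix.trace_sub, Matrix.trace_smul,
        Matrix.trace_smul, hH', Matrix.trace_one, Fintype.card_fin]
      simp
    rw [e] at h
    exact nonneg_of_mul_nonneg_left h (by exact_mod_cast hm)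
  set r := ‖q‖ with hr
  have hr0 : 0 < r := norm_pos_iff.2 hq
  have hab : a ^ 2 + b ^ 2 = r ^ 2 := by
    rw [hr, ← real_inner_self_eq_norm_sq]
    calc a ^ 2 + b ^ 2 = ⟪a • f p + b • ν p, q⟫ := by
          rw [inner_add_left, real_inner_smul_left, real_inner_smul_left, ← ha, ← hb]; ring
      _ = ⟪q, q⟫ := by rw [← hq']
  have hb1 : -1 ≤ b / r ∧ b / r ≤ 1 := by
    constructor
    · rw [le_div_iff₀ hr0]; nlinarith
    · rw [div_le_iff₀ hr0]; nlinarith
  refine ⟨Real.arcsin (b / r), Real.arcsin_mem_Icc _, ?_⟩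
  have hsin : Real.sin (Real.arcsin (b / r)) = b / r := Real.sin_arcsin hb1.1 hb1.2
  have hcos : Real.cos (Real.arcsin (b / r)) = a / r := by
    rw [Real.cos_arcsin, show 1 - (b / r) ^ 2 = (a / r) ^ 2 by field_simp; linarith,
      Real.sqrt_sq (div_nonneg ha0 hr0.le)]
  refine ⟨?_, ?_⟩
  · show Matrix.PosSemidef _
    rw [hsin, hcos]
    have : (a / r) • metric f p - (b / r) • secondForm f p (ν p) = r⁻¹ • P := by
      simp only [hP, smul_sub, smul_smul]; congr 2 <;> ring
    rw [this]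
    exact hPpsd.smul (by positivity)
  · rw [hsin, hcos, smul_add, smul_smul, smul_smul, mul_div_cancel₀ _ hr0.ne',
      mul_div_cancel₀ _ hr0.ne']
    exact hq'

end Vale.Agent.P224
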