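import Mathlib
import Vale.Agent.P224.Defs

/-!
The volume of a minimal immersion of a compact manifold is finite.
-/

namespace Vale.Agent.P224

open MeasureTheory
open scoped RealInnerProductSpace Topology ENNReal Manifold ContDiff

/-- The infimum defining `vol` runs over a nonempty family and is finite. -/
theorem vol_lt_top {m : ℕ} {M : Type*} [TopologicalSpace M] [ChartedSpace (E m) M]
    [IsManifold (𝓡 m) ∞ M] [CompactSpace M] {F : M → E (m + 2)} (hF : IsMinimalImmersion F) :
    vol F < ⊤ := by
  classical
  have hK : ∀ x : M, ∃ K : Set (E m), IsCompact K ∧ chartAt (E m) x x ∈ interior K ∧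
      K ⊆ (chartAt (E m) x).target := fun x =>
    exists_compact_subset (chartAt (E m) x).open_target (mem_chart_target (E m) x)
  choose K hKc hKi hKs using hK
  have hnhds : ∀ x : M, (chartAt (E m) x).symm '' K x ∈ 𝓝 x := by
    intro x
    have h1 : (chartAt (E m) x).source ∩ (chartAt (E m) x) ⁻¹' interior (K x) ∈ 𝓝 x :=
      ((chartAt (E m) x).isOpen_inter_preimage isOpen_interior).mem_nhds
        ⟨mem_chart_source (E m) x, hKi x⟩
    refine Filter.mem_of_superset h1 fun y hy => ?_
    exact ⟨chartAt (E m) x y, interior_subset hy.2, (chartAt (E m) x).left_inv hy.1⟩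
  obtain ⟨t, ht⟩ := finite_cover_nhds hnhds
  let c : Fin t.card → M := fun i => (t.equivFin.symm i).1
  have hfin : ∀ x : M, ∫⁻ p in K x, ENNReal.ofReal (volDensity (rep F x) p) < ⊤ := by
    intro x
    set T := (chartAt (E m) x).target with hT
    have hTo : IsOpen T := (chartAt (E m) x).open_target
    have hr : ContDiffOn ℝ ∞ (rep F x) T := by
      have h := hF.smooth.comp_contMDiffOn (contMDiffOn_chart_symm (n := ∞) (I := 𝓡 m) (x := x))
      exact contMDiffOn_iff_contDiffOn.1 h
    have hd : ∀ i, ContinuousOn (D (rep F x) i) T := fun i =>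
      ((hr.fderiv_of_isOpen hTo (m := ∞) (by simp)).continuousOn).clm_apply continuousOn_const
    have hv : ContinuousOn (volDensity (rep F x)) T := by
      have hdet : ContinuousOn (fun p => (metric (rep F x) p).det) T := by
        simp only [Matrix.det_apply']
        exact continuousOn_finsetSum _ fun σ _ => continuousOn_const.mul
          (continuousOn_finsetProd _ fun a _ => (hd (σ a)).inner (hd a))
      exact Real.continuous_sqrt.comp_continuousOn hdet
    obtain ⟨C, hC⟩ := (hKc x).exists_bound_of_continuousOn (hv.mono (hKs x))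
    refine setLIntegral_lt_top_of_le_nnreal (hKc x).measure_lt_top.ne ⟨C.toNNReal, fun p hp => ?_⟩
    exact ENNReal.ofReal_le_ofReal (le_trans (le_abs_self _) (hC p hp))
  refine lt_of_le_of_lt (iInf_le_of_le t.card (iInf_le_of_le c
    (iInf_le_of_le (fun i => K (c i)) (iInf_le_of_le
      (fun i => ⟨(hKc (c i)).measurableSet, hKs (c i)⟩) (iInf_le_of_le ?_ le_rfl))))) ?_
  · intro x
    have hx : x ∈ ⋃ y ∈ t, (chartAt (E m) y).symm '' K y := by rw [ht]; trivial
    simp only [Set.mem_iUnion] at hx
    obtain ⟨y, hy, hxy⟩ := hx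
    refine ⟨t.equivFin ⟨y, hy⟩, ?_⟩
    simpa [c] using hxy
  · exact ENNReal.sum_lt_top.2 fun i _ => hfin (c i)

end Vale.Agent.P224
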